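import Vale.Agent.P004N.H176.Fejer

/-!
# P004N, T3c: the Chebyshev bound for the logarithmic derivative of a Dirichlet series with a sharp
mean value
-/

open Real MeasureTheory Set Filter Topology

namespace P004N.H176

/-- mean value with power saving -/
def MV (β : ℕ → ℝ) (V C d : ℝ) : Prop := ∀ x : ℝ, 1 ≤ x →
  |∑ k ∈ Finset.Icc 1 ⌊x⌋₊, β k - V * x| ≤ C * x ^ (1 - d)

variable {β : ℕ → ℝ} {V C d : ℝ}

lemma MV.C_nonneg (h : MV β V C d) : 0 ≤ C := by
  have := (abs_nonneg _).trans (h 1 le_rfl)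
  simpa using this

lemma MV.le_min (h : MV β V C d) : MV β V C (min d (1 / 2)) := by
  intro x hx
  refine (h x hx).trans (mul_le_mul_of_nonneg_left ?_ h.C_nonneg)
  exact Real.rpow_le_rpow_of_exponent_le hx (by linarith [min_le_left d (1 / 2)])

/-- the remainder -/
noncomputable def Rg (β : ℕ → ℝ) (V : ℝ) (t : ℝ) : ℂ :=
  if 1 < t then ((∑ k ∈ Finset.Icc 1 ⌊t⌋₊, β k - V * t : ℝ) : ℂ) else 0

lemma Rg_meas : Measurable (Rg β V) := by
  unfold Rg
  refine Measurable.ite measurableSet_Ioi ?_ measurable_const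
  apply Complex.measurable_ofReal.comp
  apply Measurable.sub _ (measurable_const.mul measurable_id)
  have h1 : Measurable (fun n : ℕ => ∑ k ∈ Finset.Icc 1 n, β k) := measurable_from_top
  exact h1.comp Nat.measurable_floor

lemma Rg_le (h : MV β V C d) (t : ℝ) : ‖Rg β V t‖ ≤ ‖C * |t| ^ (1 - d)‖ := by
  have hC := h.C_nonneg
  unfold Rg
  split_ifs with ht
  · rw [Complex.norm_real, Real.norm_eq_abs, Real.norm_eq_abs, abs_of_pos (show (0 : ℝ) < t by linarith),
      abs_of_nonneg (mul_nonneg hC (Real.rpow_nonneg (by linarith) _))]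
    exact h t ht.le
  · rw [norm_zero]; positivity

lemma Rg_loc (h : MV β V C d) (hd : d ≤ 1 / 2) : LocallyIntegrableOn (Rg β V) (Ioi 0) := by
  have h1 : LocallyIntegrableOn (fun t : ℝ => C * |t| ^ (1 - d)) (Ioi 0) := by
    have hc : Continuous fun t : ℝ => C * |t| ^ (1 - d) :=
      continuous_const.mul (continuous_abs.rpow_const fun _ => Or.inr (by linarith))
    exact hc.locallyIntegrable.locallyIntegrableOn _
  exact h1.mono Rg_meas.aestronglyMeasurable (ae_of_all _ (Rg_le h))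

lemma Rg_top (h : MV β V C d) : Rg β V =O[atTop] (fun t : ℝ => t ^ (-(d - 1))) := by
  apply Asymptotics.IsBigO.of_bound C
  filter_upwards [eventually_ge_atTop 0] with t ht
  have h1 := Rg_le h t
  rw [abs_of_nonneg ht, norm_mul, Real.norm_eq_abs C, abs_of_nonneg h.C_nonneg] at h1
  rwa [neg_sub]

lemma Rg_bot (b : ℝ) : Rg β V =O[𝓝[>] 0] (fun t : ℝ => t ^ (-b)) := by
  apply Asymptotics.IsBigO.of_bound 1
  have : Ioo (0 : ℝ) 1 ∈ 𝓝[>] (0 : ℝ) := Ioo_mem_nhdsGT one_pos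
  filter_upwards [this] with t ht
  rw [Rg, if_neg (not_lt.2 ht.2.le), norm_zero]
  positivity

/-- the Mellin transform of the remainder -/
noncomputable def Mg (β : ℕ → ℝ) (V : ℝ) (s : ℂ) : ℂ := mellin (Rg β V) (-s)

lemma Mg_diff (h : MV β V C d) (hd : d ≤ 1 / 2) {s : ℂ} (hs : 1 - d < s.re) :
    DifferentiableAt ℂ (Mg β V) s := by
  have h1 : DifferentiableAt ℂ (mellin (Rg β V)) (-s) :=
    mellin_differentiableAt_of_isBigO_rpow (a := d - 1) (b := (-s).re - 1) (Rg_loc h hd) (Rg_top h)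
      (by rw [Complex.neg_re]; linarith) (Rg_bot _) (by linarith)
  exact DifferentiableAt.comp s h1 differentiableAt_id.neg

lemma Mg_conv (h : MV β V C d) (hd : d ≤ 1 / 2) {s : ℂ} (hs : 1 - d < s.re) :
    IntegrableOn (fun t : ℝ => (t : ℂ) ^ (-s - 1) • Rg β V t) (Ioi 0) :=
  mellinConvergent_of_isBigO_rpow (a := d - 1) (b := (-s).re - 1) (Rg_loc h hd) (Rg_top h)
      (by rw [Complex.neg_re]; linarith) (Rg_bot _) (by linarith)

lemma sum_bigO (h : MV β V C d) (hV : 0 < V) (hd : 0 < d) :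
    (fun n : ℕ => ∑ k ∈ Finset.Icc 1 n, β k) =O[atTop] fun n : ℕ => (n : ℝ) ^ (1 : ℝ) := by
  apply Asymptotics.IsBigO.of_bound (V + C)
  filter_upwards [eventually_ge_atTop 1] with n hn
  have hn1 : (1 : ℝ) ≤ n := by exact_mod_cast hn
  have h1 := h n hn1
  rw [Nat.floor_natCast] at h1
  have h2 : (n : ℝ) ^ (1 - d) ≤ (n : ℝ) ^ (1 : ℝ) :=
    Real.rpow_le_rpow_of_exponent_le hn1 (by linarith)
  have h3 := mul_le_mul_of_nonneg_left h2 h.C_nonneg
  rw [Real.rpow_one] at h2 h3 ⊢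
  rw [Real.norm_eq_abs, Real.norm_eq_abs, abs_of_pos (show (0 : ℝ) < n by linarith)]
  have h4 : |∑ k ∈ Finset.Icc 1 n, β k| ≤ |∑ k ∈ Finset.Icc 1 n, β k - V * n| + |V * n| := by
    have := abs_add_le (∑ k ∈ Finset.Icc 1 n, β k - V * n) (V * n)
    rwa [sub_add_cancel] at this
  rw [abs_of_pos (show (0 : ℝ) < V * n by positivity)] at h4
  linarith

lemma L_summable (h : MV β V C d) (hV : 0 < V) (hd : 0 < d) (hβ : ∀ n, 0 ≤ β n) {s : ℂ}
    (hs : 1 < s.re) : LSeriesSummable (fun n => (β n : ℂ)) s :=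
  LSeriesSummable_of_sum_norm_bigO_and_nonneg (sum_bigO h hV hd) hβ zero_le_one hs

lemma L_eq (h : MV β V C d) (hV : 0 < V) (hd : 0 < d) (hd2 : d ≤ 1 / 2) (hβ : ∀ n, 0 ≤ β n)
    {s : ℂ} (hs : 1 < s.re) :
    LSeries (fun n => (β n : ℂ)) s = V * s / (s - 1) + s * Mg β V s := by
  rw [LSeries_eq_mul_integral_of_nonneg β zero_le_one hs (sum_bigO h hV hd) hβ]
  have h1 : IntegrableOn (fun t : ℝ => (V : ℂ) * (t : ℂ) ^ (-s)) (Ioi 1) :=
    (integrableOn_Ioi_cpow_of_lt (by rw [Complex.neg_re]; linarith) one_pos).const_mul _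
  have h2 : IntegrableOn (fun t : ℝ => (t : ℂ) ^ (-s - 1) • Rg β V t) (Ioi 1) :=
    (Mg_conv h hd2 (by linarith)).mono_set (Ioi_subset_Ioi zero_le_one)
  have h3 : ∫ t in Ioi (1 : ℝ), (∑ k ∈ Finset.Icc 1 ⌊t⌋₊, (β k : ℂ)) * (t : ℂ) ^ (-(s + 1)) =
      ∫ t in Ioi (1 : ℝ), ((V : ℂ) * (t : ℂ) ^ (-s) + (t : ℂ) ^ (-s - 1) • Rg β V t) := by
    apply setIntegral_congr_fun measurableSet_Ioi
    intro t ht
    have ht1 : (1 : ℝ) < t := ht
    have ht0 : (t : ℂ) ≠ 0 := by
      exact_mod_cast (show t ≠ 0 by linarith)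
    have e1 : (t : ℂ) ^ (-s) = t * (t : ℂ) ^ (-s - 1) := by
      rw [Complex.cpow_sub _ _ ht0, Complex.cpow_one]
      field_simp
    simp only [Rg, if_pos ht1, smul_eq_mul]
    rw [e1, neg_add']
    push_cast
    ring
  have h4 : ∫ t in Ioi (0 : ℝ), (t : ℂ) ^ (-s - 1) • Rg β V t =
      ∫ t in Ioi (1 : ℝ), (t : ℂ) ^ (-s - 1) • Rg β V t := by
    apply setIntegral_eq_of_subset_of_forall_sdiff_eq_zero measurableSet_Ioi
      (Ioi_subset_Ioi zero_le_one)
    intro t ht
    have : ¬ 1 < t := ht.2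
    rw [Rg, if_neg this, smul_zero]
  rw [h3, integral_add h1 h2, integral_const_mul, integral_Ioi_cpow_of_lt
    (by rw [Complex.neg_re]; linarith) one_pos]
  have hs1 : s - 1 ≠ 0 := by
    intro h0
    have := congrArg Complex.re h0
    simp at this
    linarith
  have hs2 : -s + 1 ≠ 0 := by
    intro h0
    apply hs1
    linear_combination -h0
  unfold Mg mellin
  rw [h4, Complex.ofReal_one, Complex.one_cpow, mul_add]
  congr 1
  field_simp
  ring

/-- `(s - 1) L(s)` -/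
noncomputable def Hg (β : ℕ → ℝ) (V : ℝ) (s : ℂ) : ℂ := V * s + s * (s - 1) * Mg β V s

lemma Hg_diff (h : MV β V C d) (hd : d ≤ 1 / 2) {s : ℂ} (hs : 1 - d < s.re) :
    DifferentiableAt ℂ (Hg β V) s := by
  have h1 := Mg_diff h hd hs
  unfold Hg
  exact ((differentiableAt_const _).mul differentiableAt_id).add
    ((differentiableAt_id.mul (differentiableAt_id.sub (differentiableAt_const _))).mul h1)

lemma Hg_one : Hg β V 1 = V := by simp [Hg]

lemma L_eq' (h : MV β V C d) (hV : 0 < V) (hd : 0 < d) (hd2 : d ≤ 1 / 2) (hβ : ∀ n, 0 ≤ β n)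
    {s : ℂ} (hs : 1 < s.re) :
    LSeries (fun n => (β n : ℂ)) s = Hg β V s / (s - 1) := by
  have hs1 : s - 1 ≠ 0 := by
    intro h0
    have := congrArg Complex.re h0
    simp at this
    linarith
  rw [L_eq h hV hd hd2 hβ hs, Hg]
  field_simp

/-- near `1` -/
lemma near (h : MV β V C d) (hV : 0 < V) (hd : 0 < d) (hd2 : d ≤ 1 / 2) :
    ∃ ε B : ℝ, 0 < ε ∧ ε ≤ 1 ∧ ∀ s : ℂ, ‖s - 1‖ ≤ 2 * ε → V / 2 ≤ ‖Hg β V s‖ ∧
      ‖deriv (Hg β V) s‖ ≤ B := by
  have hopen : IsOpen {s : ℂ | 1 - d < s.re} := isOpen_lt continuous_const Complex.continuous_re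
  have hD : DifferentiableOn ℂ (Hg β V) {s : ℂ | 1 - d < s.re} := fun s hs =>
    (Hg_diff h hd2 hs).differentiableWithinAt
  have hmem : (1 : ℂ) ∈ {s : ℂ | 1 - d < s.re} := by
    change 1 - d < (1 : ℂ).re
    rw [Complex.one_re]
    linarith
  have hA : AnalyticAt ℂ (Hg β V) 1 := hD.analyticAt (hopen.mem_nhds hmem)
  have h1 : ContinuousAt (fun s => ‖Hg β V s‖) 1 := hA.continuousAt.norm
  have h2 : ContinuousAt (fun s => ‖deriv (Hg β V) s‖) 1 := hA.deriv.continuousAt.norm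
  have h3 : ∀ᶠ s in 𝓝 (1 : ℂ), V / 2 < ‖Hg β V s‖ := by
    apply h1.eventually_const_lt
    change V / 2 < ‖Hg β V 1‖
    rw [Hg_one, Complex.norm_real, Real.norm_eq_abs, abs_of_pos hV]
    linarith
  have h4 : ∀ᶠ s in 𝓝 (1 : ℂ), ‖deriv (Hg β V) s‖ < ‖deriv (Hg β V) 1‖ + 1 :=
    h2.eventually_lt_const (by linarith)
  obtain ⟨r, hr, h5⟩ := Metric.eventually_nhds_iff.1 (h3.and h4)
  refine ⟨min (r / 4) 1, ‖deriv (Hg β V) 1‖ + 1, by positivity, min_le_right _ _, fun s hs => ?_⟩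
  have h6 : dist s 1 < r := by
    rw [dist_eq_norm]
    have := min_le_left (r / 4) 1
    linarith
  have h7 := h5 h6
  exact ⟨h7.1.le, h7.2.le⟩

open ArithmeticFunction in
/-- **Chebyshev's bound** for `Lm`, `Lm * β = β log` -/
theorem cheb {β Lm : ArithmeticFunction ℝ} (hβ : ∀ n, 0 ≤ β n) (hLm : ∀ n, 0 ≤ Lm n) (hb1 : β 1 = 1)
    (hconv : ∀ n, (Lm * β) n = β n * Real.log n) {V C d : ℝ} (hV : 0 < V) (hd : 0 < d)
    (hB : MV β V C d) :
    ∃ C' : ℝ, 0 ≤ C' ∧ ∀ (T : ℝ) (S : Finset ℕ), (∀ n ∈ S, |T - Real.log n| ≤ 1) →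
      ∑ n ∈ S, Lm n / n ≤ C' := by
  have hB' := hB.le_min
  have hd' : 0 < min d (1 / 2) := lt_min hd (by norm_num)
  have hd2 : min d (1 / 2) ≤ 1 / 2 := min_le_right _ _
  -- `Lm ≤ β log`
  have hle : ∀ n : ℕ, Lm n ≤ Real.log n * β n := by
    intro n
    rcases Nat.eq_zero_or_pos n with rfl | hn
    · simp
    rw [mul_comm, ← hconv n, mul_apply]
    have h1 : Lm n = Lm (n, 1).1 * β (n, 1).2 := by simp [hb1]
    rw [h1]
    apply Finset.single_le_sum (f := fun x : ℕ × ℕ => Lm x.1 * β x.2)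
      (fun x _ => mul_nonneg (hLm _) (hβ _))
    rw [Nat.mem_divisorsAntidiagonal]
    exact ⟨mul_one n, hn.ne'⟩
  have habs : ∀ s : ℂ, 1 < s.re → LSeries.abscissaOfAbsConv (fun n => (β n : ℂ)) < s.re := by
    intro s hs
    have h1 : LSeries.abscissaOfAbsConv (fun n => (β n : ℂ)) ≤ ((1 + s.re) / 2 : ℝ) := by
      have h2 : LSeriesSummable (fun n => (β n : ℂ)) (((1 + s.re) / 2 : ℝ) : ℂ) :=
        L_summable hB' hV hd' hβ (by rw [Complex.ofReal_re]; linarith)
      have := LSeriesSummable.abscissaOfAbsConv_le h2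
      rwa [Complex.ofReal_re] at this
    refine h1.trans_lt ?_
    exact_mod_cast (by linarith : (1 + s.re) / 2 < s.re)
  have hlog : ∀ s : ℂ, 1 < s.re →
      LSeriesSummable (LSeries.logMul (fun n => (β n : ℂ))) s := fun s hs =>
    LSeriesSummable_logMul_of_lt_re (habs s hs)
  have hLms : ∀ s : ℂ, 1 < s.re → LSeriesSummable (fun n => (Lm n : ℂ)) s := by
    intro s hs
    refine Summable.of_norm_bounded (hlog s hs).norm fun n => ?_
    apply LSeries.norm_term_le
    change ‖((Lm n : ℝ) : ℂ)‖ ≤ ‖Complex.log n * ((β n : ℝ) : ℂ)‖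
    rw [← Complex.natCast_log, ← Complex.ofReal_mul, Complex.norm_real, Complex.norm_real,
      Real.norm_eq_abs, Real.norm_eq_abs, abs_of_nonneg (hLm n)]
    exact (hle n).trans (le_abs_self _)
  have hprod : ∀ s : ℂ, 1 < s.re → LSeries (fun n => (Lm n : ℂ)) s *
      LSeries (fun n => (β n : ℂ)) s = LSeries (LSeries.logMul (fun n => (β n : ℂ))) s := by
    intro s hs
    rw [← LSeries_convolution' (hLms s hs) (L_summable hB' hV hd' hβ hs)]
    apply LSeries_congr
    intro n hn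
    rw [LSeries.convolution_def]
    change _ = Complex.log n * ((β n : ℝ) : ℂ)
    rw [← Complex.natCast_log, ← Complex.ofReal_mul, mul_comm (Real.log n), ← hconv n, mul_apply]
    push_cast
    rfl
  obtain ⟨ε, B, hε, hε1, hnear⟩ := near hB' hV hd' hd2
  have hopen : IsOpen {s : ℂ | 1 < s.re} := isOpen_lt continuous_const Complex.continuous_re
  refine cheb_of hLm (by simp) ?_ hε hε1 (C := B / (V / 2)) ?_
  · intro σ hσ
    have h1 := (hLms ((1 + σ : ℝ) : ℂ) (by rw [Complex.ofReal_re]; linarith)).norm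
    refine h1.congr fun n => ?_
    rcases Nat.eq_zero_or_pos n with rfl | hn
    · simp
    · rw [LSeries.norm_term_eq, if_neg hn.ne', Complex.norm_real, Real.norm_eq_abs,
        abs_of_nonneg (hLm n), Real.rpow_neg (Nat.cast_nonneg n), Complex.ofReal_re, div_eq_mul_inv]
  · intro s hs hsε
    obtain ⟨h1, h2⟩ := hnear s hsε
    have hH0 : Hg β V s ≠ 0 := by
      intro h0
      rw [h0, norm_zero] at h1
      linarith
    have hs1 : s - 1 ≠ 0 := by
      intro h0
      have := congrArg Complex.re h0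
      simp at this
      linarith
    have hL := L_eq' hB' hV hd' hd2 hβ hs
    -- the derivative
    have hder : LSeries (LSeries.logMul (fun n => (β n : ℂ))) s =
        -(deriv (Hg β V) s / (s - 1) - Hg β V s / (s - 1) ^ 2) := by
      have h3 := LSeries_deriv (habs s hs)
      have h4 : deriv (LSeries (fun n => (β n : ℂ))) s =
          deriv (fun s => Hg β V s / (s - 1)) s := by
        apply Filter.EventuallyEq.deriv_eq
        filter_upwards [hopen.mem_nhds hs] with z hz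
        exact L_eq' hB' hV hd' hd2 hβ hz
      have h5 : HasDerivAt (fun s => Hg β V s / (s - 1))
          ((deriv (Hg β V) s * (s - 1) - Hg β V s * 1) / (s - 1) ^ 2) s :=
        ((Hg_diff hB' hd2 (by linarith : 1 - min d (1 / 2) < s.re)).hasDerivAt).div
          ((hasDerivAt_id s).sub_const 1) hs1
      rw [h4, h5.deriv] at h3
      rw [← neg_eq_iff_eq_neg] at h3
      rw [← h3]
      field_simp
    have hmain : LSeries (fun n => (Lm n : ℂ)) s - 1 / (s - 1) =
        -(deriv (Hg β V) s / Hg β V s) := by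
      have h6 := hprod s hs
      rw [hL, hder] at h6
      have h7 : LSeries (fun n => (Lm n : ℂ)) s =
          -(deriv (Hg β V) s / (s - 1) - Hg β V s / (s - 1) ^ 2) * ((s - 1) / Hg β V s) := by
        rw [← h6]
        field_simp
      rw [h7]
      field_simp
      ring
    rw [hmain, norm_neg, norm_div]
    exact div_le_div₀ ((norm_nonneg _).trans h2) h2 (by positivity) h1

end P004N.H176
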