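import Mathlib

/-!
# P004N, T3c: a Chebyshev bound from the behaviour of the Dirichlet series near `s = 1`
-/

open Real MeasureTheory Set Filter Topology

namespace P004N.H176

/-- the Fejer kernel -/
noncomputable def FK (ε u : ℝ) : ℝ := 2 * ∫ t in (0 : ℝ)..ε, (1 - t / ε) * Real.cos (t * u)

lemma FK_eq {ε u : ℝ} (hε : 0 < ε) (hu : u ≠ 0) :
    FK ε u = 2 * (1 - Real.cos (ε * u)) / (ε * u ^ 2) := by
  unfold FK
  have h : ∀ t ∈ Set.uIcc 0 ε, HasDerivAt
      (fun t : ℝ => (1 - t / ε) * Real.sin (t * u) / u - Real.cos (t * u) / (ε * u ^ 2))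
      ((1 - t / ε) * Real.cos (t * u)) t := by
    intro t _
    have h1 : HasDerivAt (fun t : ℝ => t * u) u t := by simpa using (hasDerivAt_id t).mul_const u
    have h2 : HasDerivAt (fun t : ℝ => Real.sin (t * u)) (Real.cos (t * u) * u) t := h1.sin
    have h3 : HasDerivAt (fun t : ℝ => Real.cos (t * u)) (-Real.sin (t * u) * u) t := h1.cos
    have h4 : HasDerivAt (fun t : ℝ => 1 - t / ε) (-(1 / ε)) t := by
      simpa using ((hasDerivAt_id t).div_const ε).const_sub 1
    have h5 := ((h4.mul h2).div_const u).sub (h3.div_const (ε * u ^ 2))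
    refine HasDerivAt.congr_deriv (f := fun t : ℝ =>
      (1 - t / ε) * Real.sin (t * u) / u - Real.cos (t * u) / (ε * u ^ 2)) h5 ?_
    field_simp
    ring
  rw [intervalIntegral.integral_eq_sub_of_hasDerivAt h
    (Continuous.intervalIntegrable (by fun_prop) _ _)]
  have e0 : (0 : ℝ) / ε = 0 := zero_div ε
  rw [div_self hε.ne', e0]
  simp only [sub_self, zero_mul, zero_div, Real.sin_zero, Real.cos_zero, mul_zero, zero_sub]
  field_simp
  ring

lemma FK_abs_le {ε : ℝ} (hε : 0 < ε) (u : ℝ) : |FK ε u| ≤ 2 * ε := by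
  unfold FK
  rw [abs_mul, abs_two]
  have h : ‖∫ t in (0 : ℝ)..ε, (1 - t / ε) * Real.cos (t * u)‖ ≤ 1 * |ε - 0| := by
    apply intervalIntegral.norm_integral_le_of_norm_le_const
    intro t ht
    rw [Set.uIoc_of_le hε.le] at ht
    have h1 : 0 ≤ t / ε := div_nonneg ht.1.le hε.le
    have h2 : t / ε ≤ 1 := (div_le_one hε).2 ht.2
    rw [norm_mul, Real.norm_eq_abs, Real.norm_eq_abs]
    have h3 : |1 - t / ε| ≤ 1 := by rw [abs_le]; constructor <;> linarith
    have h4 := Real.abs_cos_le_one (t * u)
    nlinarith [abs_nonneg (1 - t / ε), abs_nonneg (Real.cos (t * u))]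
  rw [sub_zero, abs_of_pos hε, one_mul, Real.norm_eq_abs] at h
  linarith

lemma FK_ge {ε u : ℝ} (hε : 0 < ε) (hε1 : ε ≤ 1) (hu : |u| ≤ 1) : ε / 2 ≤ FK ε u := by
  unfold FK
  have h1 : ∫ t in (0 : ℝ)..ε, (1 - t / ε) * (1 / 2) = ε / 4 := by
    have h : ∀ t ∈ Set.uIcc 0 ε, HasDerivAt
        (fun t : ℝ => (t - t ^ 2 / (2 * ε)) / 2) ((1 - t / ε) * (1 / 2)) t := by
      intro t _
      have h1 : HasDerivAt (fun t : ℝ => t ^ 2 / (2 * ε)) (2 * t / (2 * ε)) t := by
        simpa using (hasDerivAt_pow 2 t).div_const (2 * ε)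
      have h2 := ((hasDerivAt_id t).sub h1).div_const 2
      refine HasDerivAt.congr_deriv (f := fun t : ℝ => (t - t ^ 2 / (2 * ε)) / 2) h2 ?_
      field_simp
    rw [intervalIntegral.integral_eq_sub_of_hasDerivAt h
      (Continuous.intervalIntegrable (by fun_prop) _ _)]
    field_simp
    ring
  have h2 : ∫ t in (0 : ℝ)..ε, (1 - t / ε) * (1 / 2) ≤
      ∫ t in (0 : ℝ)..ε, (1 - t / ε) * Real.cos (t * u) := by
    apply intervalIntegral.integral_mono_on hε.le
      (Continuous.intervalIntegrable (by fun_prop) _ _)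
      (Continuous.intervalIntegrable (by fun_prop) _ _)
    intro t ht
    have h3 : t / ε ≤ 1 := (div_le_one hε).2 ht.2
    apply mul_le_mul_of_nonneg_left _ (by linarith)
    have h4 := Real.one_sub_sq_div_two_le_cos (x := t * u)
    have h5 : (t * u) ^ 2 ≤ 1 := by
      rw [← sq_abs, abs_mul, abs_of_nonneg ht.1]
      have h6 : t * |u| ≤ 1 := by
        have := mul_le_mul (ht.2.trans hε1) hu (abs_nonneg u) (by norm_num : (0 : ℝ) ≤ 1)
        linarith
      have h7 : 0 ≤ t * |u| := mul_nonneg ht.1 (abs_nonneg u)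
      nlinarith
    linarith
  linarith

lemma FK_nonneg {ε : ℝ} (hε : 0 < ε) (u : ℝ) : 0 ≤ FK ε u := by
  rcases eq_or_ne u 0 with rfl | hu
  · unfold FK
    apply mul_nonneg (by norm_num)
    apply intervalIntegral.integral_nonneg hε.le
    intro t ht
    rw [mul_zero, Real.cos_zero, mul_one]
    have h3 : t / ε ≤ 1 := (div_le_one hε).2 ht.2
    linarith
  · rw [FK_eq hε hu]
    have := Real.cos_le_one (ε * u)
    apply div_nonneg (by linarith) (by positivity)

lemma FK_le {ε : ℝ} (hε : 0 < ε) (u : ℝ) : FK ε u ≤ (4 * ε + 8 / ε) * (1 + u ^ 2)⁻¹ := by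
  have h0 : (0 : ℝ) < 1 + u ^ 2 := by positivity
  rw [← div_eq_mul_inv, le_div_iff₀ h0]
  have h8 : 0 < 8 / ε := by positivity
  rcases le_or_gt (u ^ 2) 1 with h | h
  · have h1 := (le_abs_self _).trans (FK_abs_le hε u)
    have h2 := FK_nonneg hε u
    nlinarith
  · have hu : u ≠ 0 := by rintro rfl; norm_num at h
    rw [FK_eq hε hu, div_mul_eq_mul_div, div_le_iff₀ (by positivity)]
    have h1 := Real.neg_one_le_cos (ε * u)
    have h2 : (4 * ε + 8 / ε) * (ε * u ^ 2) = 4 * ε ^ 2 * u ^ 2 + 8 * u ^ 2 := by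
      field_simp
    rw [h2]
    have h3 : 0 ≤ 4 * ε ^ 2 * u ^ 2 := by positivity
    nlinarith

lemma FK_cont {ε : ℝ} : Continuous (FK ε) := by
  unfold FK
  apply continuous_const.mul
  apply intervalIntegral.continuous_parametric_intervalIntegral_of_continuous' (by fun_prop)

/-- the Laplace transform of the kernel -/
lemma laplace {σ : ℝ} (hσ : 0 < σ) (T t : ℝ) :
    ∫ u in Ioi (0 : ℝ), Real.exp (-(σ * u)) * Real.cos (t * (T - u)) =
      (Complex.exp (Complex.I * (t * T)) / (σ + Complex.I * t)).re := by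
  have h1 := integral_exp_mul_complex_Ioi (a := -(σ + Complex.I * t)) (by simp [hσ]) 0
  have h2 : IntegrableOn (fun u : ℝ => Complex.exp (-(σ + Complex.I * t) * u)) (Ioi 0) := by
    apply integrableOn_exp_mul_complex_Ioi (by simp [hσ]) 0
  have h3 : ∀ u : ℝ, Real.exp (-(σ * u)) * Real.cos (t * (T - u)) =
      (Complex.exp (Complex.I * (t * T)) * Complex.exp (-(σ + Complex.I * t) * u)).re := by
    intro u
    rw [← Complex.exp_add, Complex.exp_re]
    have e1 : (Complex.I * (↑t * ↑T) + -(↑σ + Complex.I * ↑t) * ↑u).re = -(σ * u) := by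
      simp
    have e2 : (Complex.I * (↑t * ↑T) + -(↑σ + Complex.I * ↑t) * ↑u).im = t * (T - u) := by
      simp
      ring
    rw [e1, e2]
  calc ∫ u in Ioi (0 : ℝ), Real.exp (-(σ * u)) * Real.cos (t * (T - u))
      = ∫ u in Ioi (0 : ℝ),
          (Complex.exp (Complex.I * (t * T)) * Complex.exp (-(σ + Complex.I * t) * u)).re := by
        exact integral_congr_ae (ae_of_all _ h3)
    _ = (∫ u in Ioi (0 : ℝ),
          (Complex.exp (Complex.I * (t * T)) * Complex.exp (-(σ + Complex.I * t) * u))).re := by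
        exact integral_re (h2.const_mul _)
    _ = _ := by
        rw [integral_const_mul, h1]
        simp only [Complex.ofReal_zero, mul_zero, Complex.exp_zero, neg_div_neg_eq]
        congr 1
        ring

lemma main_part {ε σ : ℝ} (hε : 0 < ε) (hσ : 0 < σ) (T : ℝ) :
    2 * ∫ t in (0 : ℝ)..ε, (1 - t / ε) *
      (Complex.exp (Complex.I * (t * T)) / (σ + Complex.I * t)).re ≤ (4 * ε + 8 / ε) * π := by
  have h1 : ∫ t in (0 : ℝ)..ε, (1 - t / ε) *
      (Complex.exp (Complex.I * (t * T)) / (σ + Complex.I * t)).re =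
      ∫ t in (0 : ℝ)..ε, ∫ u in Ioi (0 : ℝ),
        (1 - t / ε) * (Real.exp (-(σ * u)) * Real.cos (t * (T - u))) := by
    apply intervalIntegral.integral_congr
    intro t _
    change _ = ∫ u in Ioi (0 : ℝ), (1 - t / ε) * (Real.exp (-(σ * u)) * Real.cos (t * (T - u)))
    rw [integral_const_mul, laplace hσ]
  have hexp : Integrable (fun u : ℝ => Real.exp (-(σ * u))) (volume.restrict (Ioi 0)) := by
    have := exp_neg_integrableOn_Ioi 0 hσ
    refine this.congr ?_
    apply ae_of_all
    intro u
    simp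
  have hint : Integrable (Function.uncurry fun (t u : ℝ) =>
      (1 - t / ε) * (Real.exp (-(σ * u)) * Real.cos (t * (T - u))))
      ((volume.restrict (Ioc 0 ε)).prod (volume.restrict (Ioi 0))) := by
    have h2 : Integrable (fun z : ℝ × ℝ => (1 : ℝ) * Real.exp (-(σ * z.2)))
        ((volume.restrict (Ioc 0 ε)).prod (volume.restrict (Ioi 0))) :=
      Integrable.mul_prod (f := fun _ : ℝ => (1 : ℝ)) (integrable_const 1) hexp
    refine h2.mono' ?_ ?_
    · apply Continuous.aestronglyMeasurable
      fun_prop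
    · rw [Measure.prod_restrict]
      filter_upwards [ae_restrict_mem (measurableSet_Ioc.prod measurableSet_Ioi)] with z hz
      obtain ⟨⟨hz1, hz2⟩, -⟩ := hz
      have h3 : 0 ≤ z.1 / ε := div_nonneg hz1.le hε.le
      have h4 : z.1 / ε ≤ 1 := (div_le_one hε).2 hz2
      simp only [Function.uncurry]
      rw [norm_mul, norm_mul, Real.norm_eq_abs, Real.norm_eq_abs, Real.norm_eq_abs, Real.abs_exp]
      have h5 : |1 - z.1 / ε| ≤ 1 := by rw [abs_le]; constructor <;> linarith
      have h6 := Real.abs_cos_le_one (z.1 * (T - z.2))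
      have h7 := Real.exp_pos (-(σ * z.2))
      calc |1 - z.1 / ε| * (Real.exp (-(σ * z.2)) * |Real.cos (z.1 * (T - z.2))|)
          ≤ 1 * (Real.exp (-(σ * z.2)) * 1) := by
            apply mul_le_mul h5 _ (by positivity) (by norm_num)
            exact mul_le_mul_of_nonneg_left h6 h7.le
        _ = _ := by ring
  have h2 : ∫ t in (0 : ℝ)..ε, ∫ u in Ioi (0 : ℝ),
        (1 - t / ε) * (Real.exp (-(σ * u)) * Real.cos (t * (T - u))) =
      ∫ u in Ioi (0 : ℝ), ∫ t in (0 : ℝ)..ε,
        (1 - t / ε) * (Real.exp (-(σ * u)) * Real.cos (t * (T - u))) := by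
    rw [intervalIntegral.integral_of_le hε.le]
    rw [integral_integral_swap hint]
    apply integral_congr_ae
    apply ae_of_all
    intro u
    exact (intervalIntegral.integral_of_le hε.le).symm
  have h3 : ∀ u : ℝ, ∫ t in (0 : ℝ)..ε,
        (1 - t / ε) * (Real.exp (-(σ * u)) * Real.cos (t * (T - u))) =
      Real.exp (-(σ * u)) * (FK ε (T - u) / 2) := by
    intro u
    unfold FK
    rw [mul_div_cancel_left₀ _ (two_ne_zero), ← intervalIntegral.integral_const_mul]
    apply intervalIntegral.integral_congr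
    intro t _
    ring
  rw [h1, h2]
  simp only [h3]
  set A : ℝ := 4 * ε + 8 / ε with hA
  have hA0 : 0 < A := by positivity
  have hg : Integrable (fun u : ℝ => A / 2 * (1 + (T - u) ^ 2)⁻¹) := by
    have h4 := integrable_inv_one_add_sq.comp_sub_left T
    exact h4.const_mul _
  have h4 : ∫ u in Ioi (0 : ℝ), Real.exp (-(σ * u)) * (FK ε (T - u) / 2) ≤
      ∫ u in Ioi (0 : ℝ), A / 2 * (1 + (T - u) ^ 2)⁻¹ := by
    apply setIntegral_mono_on _ hg.integrableOn measurableSet_Ioi
    · intro u hu
      have h5 := FK_le hε (T - u)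
      have h6 := FK_nonneg hε (T - u)
      have h7 : Real.exp (-(σ * u)) ≤ 1 := by
        rw [Real.exp_le_one_iff]
        have : 0 < σ * u := mul_pos hσ hu
        linarith
      have h8 := Real.exp_pos (-(σ * u))
      calc Real.exp (-(σ * u)) * (FK ε (T - u) / 2) ≤ 1 * (FK ε (T - u) / 2) :=
            mul_le_mul_of_nonneg_right h7 (by linarith)
        _ ≤ _ := by linarith
    · have h5 : Integrable (fun u : ℝ => ε * Real.exp (-(σ * u))) (volume.restrict (Ioi 0)) :=
        hexp.const_mul _
      refine h5.mono' ?_ (ae_of_all _ fun u => ?_)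
      · apply Continuous.aestronglyMeasurable
        have := FK_cont (ε := ε)
        fun_prop
      · rw [norm_mul, Real.norm_eq_abs, Real.norm_eq_abs, Real.abs_exp, abs_div, abs_two]
        have := FK_abs_le hε (T - u)
        have h8 := Real.exp_pos (-(σ * u))
        nlinarith
  have h5 : ∫ u in Ioi (0 : ℝ), A / 2 * (1 + (T - u) ^ 2)⁻¹ ≤ A / 2 * π := by
    calc ∫ u in Ioi (0 : ℝ), A / 2 * (1 + (T - u) ^ 2)⁻¹ ≤ ∫ u : ℝ, A / 2 * (1 + (T - u) ^ 2)⁻¹ :=
          setIntegral_le_integral hg (ae_of_all _ fun u => by positivity)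
      _ = A / 2 * ∫ u : ℝ, (1 + (T - u) ^ 2)⁻¹ := integral_const_mul _ _
      _ = A / 2 * π := by
          rw [integral_sub_left_eq_self (fun u : ℝ => (1 + u ^ 2)⁻¹) volume T,
            integral_univ_inv_one_add_sq]
  linarith

/-- the real part of the Dirichlet series -/
lemma series_re {f : ℕ → ℝ} (f0 : f 0 = 0) {σ : ℝ}
    (hs : Summable fun n : ℕ => f n * (n : ℝ) ^ (-(1 + σ))) (hf : ∀ n, 0 ≤ f n) (T t : ℝ) :
    HasSum (fun n : ℕ => f n * (n : ℝ) ^ (-(1 + σ)) * Real.cos (t * (T - Real.log n)))
      (Complex.exp (Complex.I * (t * T)) *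
        LSeries (fun n => (f n : ℂ)) (1 + σ + Complex.I * t)).re := by
  have hterm : ∀ n : ℕ, (Complex.exp (Complex.I * (t * T)) *
      LSeries.term (fun n => (f n : ℂ)) (1 + σ + Complex.I * t) n).re =
      f n * (n : ℝ) ^ (-(1 + σ)) * Real.cos (t * (T - Real.log n)) := by
    intro n
    rcases Nat.eq_zero_or_pos n with rfl | hn
    · rw [LSeries.term_zero, mul_zero, f0]; simp
    · have hn0 : (0 : ℝ) < n := by exact_mod_cast hn
      rw [LSeries.term_of_ne_zero hn.ne']
      have e1 : ((n : ℂ)) ^ (1 + (σ : ℂ) + Complex.I * t) =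
          Complex.exp (Complex.I * (t * Real.log n)) * (((n : ℝ) ^ (1 + σ) : ℝ) : ℂ) := by
        rw [Complex.ofReal_cpow hn0.le, Complex.ofReal_natCast,
          Complex.cpow_def_of_ne_zero (by exact_mod_cast hn.ne'),
          Complex.cpow_def_of_ne_zero (by exact_mod_cast hn.ne'), ← Complex.exp_add,
          Complex.natCast_log]
        congr 1
        push_cast
        ring
      have e2 : Complex.exp (Complex.I * (t * T)) *
          ((f n : ℂ) / (n : ℂ) ^ (1 + (σ : ℂ) + Complex.I * t)) =
          ((f n * (n : ℝ) ^ (-(1 + σ)) : ℝ) : ℂ) *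
            Complex.exp (((t * (T - Real.log n) : ℝ) : ℂ) * Complex.I) := by
        rw [e1]
        have e3 : Complex.exp (((t * (T - Real.log n) : ℝ) : ℂ) * Complex.I) =
            Complex.exp (Complex.I * (t * T)) / Complex.exp (Complex.I * (t * Real.log n)) := by
          rw [← Complex.exp_sub]
          congr 1
          push_cast
          ring
        have e4 : (((n : ℝ) ^ (1 + σ) : ℝ) : ℂ) ≠ 0 := by
          exact_mod_cast (Real.rpow_pos_of_pos hn0 _).ne'
        rw [e3, Real.rpow_neg hn0.le]
        push_cast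
        field_simp
      rw [e2, Complex.re_ofReal_mul, Complex.exp_ofReal_mul_I_re]
  have hsum : LSeriesSummable (fun n => (f n : ℂ)) (1 + σ + Complex.I * t) := by
    refine Summable.of_norm_bounded hs fun n => ?_
    rcases Nat.eq_zero_or_pos n with rfl | hn
    · rw [LSeries.term_zero, norm_zero, f0, zero_mul]
    · have hn0 : (0 : ℝ) < n := by exact_mod_cast hn
      rw [LSeries.norm_term_eq, if_neg hn.ne', Complex.norm_real, Real.norm_eq_abs,
        abs_of_nonneg (hf n), Real.rpow_neg hn0.le]
      simp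
      exact le_of_eq (by rw [div_eq_mul_inv])
  have h1 := hsum.hasSum.mul_left (Complex.exp (Complex.I * (t * T)))
  have h2 := Complex.hasSum_re h1
  rw [← funext hterm]
  exact h2

/-- **Chebyshev bound from the behaviour of the series near `1`** -/
theorem cheb_of {f : ℕ → ℝ} (hf : ∀ n, 0 ≤ f n) (f0 : f 0 = 0)
    (hs : ∀ σ : ℝ, 0 < σ → Summable fun n : ℕ => f n * (n : ℝ) ^ (-(1 + σ)))
    {ε C : ℝ} (hε : 0 < ε) (hε1 : ε ≤ 1)
    (hb : ∀ s : ℂ, 1 < s.re → ‖s - 1‖ ≤ 2 * ε →
      ‖LSeries (fun n => (f n : ℂ)) s - 1 / (s - 1)‖ ≤ C) :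
    ∃ C' : ℝ, 0 ≤ C' ∧ ∀ (T : ℝ) (S : Finset ℕ), (∀ n ∈ S, |T - Real.log n| ≤ 1) →
      ∑ n ∈ S, f n / n ≤ C' := by
  have hC : 0 ≤ C := by
    refine (norm_nonneg _).trans (hb (1 + ε) ?_ ?_)
    · simpa using hε
    · rw [add_sub_cancel_left, Complex.norm_real, Real.norm_eq_abs, abs_of_pos hε]
      linarith
  set A : ℝ := 4 * ε + 8 / ε with hA
  have hA0 : 0 < A := by positivity
  refine ⟨2 / ε * (A * π + 2 * ε * C), by positivity, fun T S hS => ?_⟩
  -- the bound for `σ > 0`
  have key : ∀ σ : ℝ, 0 < σ → σ ≤ ε →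
      ∑ n ∈ S, f n * (n : ℝ) ^ (-(1 + σ)) ≤ 2 / ε * (A * π + 2 * ε * C) := by
    intro σ hσ hσε
    have hsum : HasSum (fun n : ℕ => ∫ t in (0 : ℝ)..ε, (1 - t / ε) *
        (f n * (n : ℝ) ^ (-(1 + σ)) * Real.cos (t * (T - Real.log n))))
        (∫ t in (0 : ℝ)..ε, (1 - t / ε) * (Complex.exp (Complex.I * (t * T)) *
          LSeries (fun n => (f n : ℂ)) (1 + σ + Complex.I * t)).re) := by
      apply intervalIntegral.hasSum_integral_of_dominated_convergence
        (fun (n : ℕ) (_ : ℝ) => f n * (n : ℝ) ^ (-(1 + σ)))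
      · intro n
        apply Continuous.aestronglyMeasurable
        fun_prop
      · intro n
        apply ae_of_all
        intro t ht
        rw [Set.uIoc_of_le hε.le] at ht
        have h3 : 0 ≤ t / ε := div_nonneg ht.1.le hε.le
        have h4 : t / ε ≤ 1 := (div_le_one hε).2 ht.2
        have h5 : |1 - t / ε| ≤ 1 := by rw [abs_le]; constructor <;> linarith
        have h6 := Real.abs_cos_le_one (t * (T - Real.log n))
        have h7 : 0 ≤ f n * (n : ℝ) ^ (-(1 + σ)) :=
          mul_nonneg (hf n) (Real.rpow_nonneg (Nat.cast_nonneg _) _)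
        rw [norm_mul, norm_mul, Real.norm_eq_abs, Real.norm_eq_abs, Real.norm_eq_abs,
          abs_of_nonneg h7]
        calc |1 - t / ε| * (f n * (n : ℝ) ^ (-(1 + σ)) * |Real.cos (t * (T - Real.log n))|)
            ≤ 1 * (f n * (n : ℝ) ^ (-(1 + σ)) * 1) := by
              apply mul_le_mul h5 _ (by positivity) (by norm_num)
              exact mul_le_mul_of_nonneg_left h6 h7
          _ = _ := by ring
      · exact ae_of_all _ fun t _ => hs σ hσ
      · exact intervalIntegrable_const
      · exact ae_of_all _ fun t _ => (series_re f0 (hs σ hσ) hf T t).mul_left _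
    have hterm : ∀ n : ℕ, ∫ t in (0 : ℝ)..ε, (1 - t / ε) *
        (f n * (n : ℝ) ^ (-(1 + σ)) * Real.cos (t * (T - Real.log n))) =
        f n * (n : ℝ) ^ (-(1 + σ)) * (FK ε (T - Real.log n) / 2) := by
      intro n
      unfold FK
      rw [mul_div_cancel_left₀ _ (two_ne_zero), ← intervalIntegral.integral_const_mul]
      apply intervalIntegral.integral_congr
      intro t _
      ring
    simp only [hterm] at hsum
    -- the integrand
    have hint1 : IntervalIntegrable (fun t : ℝ => (1 - t / ε) *
        ((Complex.exp (Complex.I * (t * T)) / (σ + Complex.I * t)).re + C)) volume 0 ε := by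
      apply Continuous.intervalIntegrable
      have hne : ∀ t : ℝ, (σ : ℂ) + Complex.I * t ≠ 0 := by
        intro t h
        have := congrArg Complex.re h
        simp at this
        exact hσ.ne' this
      have h1 : Continuous fun t : ℝ =>
          Complex.exp (Complex.I * (t * T)) / ((σ : ℂ) + Complex.I * t) :=
        Continuous.div (by fun_prop) (by fun_prop) hne
      have h2 := Complex.continuous_re.comp h1
      exact (by fun_prop : Continuous fun t : ℝ => 1 - t / ε).mul (h2.add continuous_const)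
    have hfin : ∑ n ∈ S, f n * (n : ℝ) ^ (-(1 + σ)) * (FK ε (T - Real.log n) / 2) ≤
        ∫ t in (0 : ℝ)..ε, (1 - t / ε) *
          ((Complex.exp (Complex.I * (t * T)) / (σ + Complex.I * t)).re + C) := by
      refine (sum_le_hasSum S (fun n _ => ?_) hsum).trans ?_
      · have := FK_nonneg hε (T - Real.log n)
        have h7 : 0 ≤ f n * (n : ℝ) ^ (-(1 + σ)) :=
          mul_nonneg (hf n) (Real.rpow_nonneg (Nat.cast_nonneg _) _)
        positivity
      · by_cases hI : IntervalIntegrable (fun t : ℝ => (1 - t / ε) *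
          (Complex.exp (Complex.I * (t * T)) *
            LSeries (fun n => (f n : ℂ)) (1 + σ + Complex.I * t)).re) volume 0 ε
        · apply intervalIntegral.integral_mono_on hε.le hI hint1
          intro t ht
          have h4 : t / ε ≤ 1 := (div_le_one hε).2 ht.2
          apply mul_le_mul_of_nonneg_left _ (by linarith)
          have h5 := hb (1 + σ + Complex.I * t) (by simpa using hσ) (by
            have e : (1 : ℂ) + σ + Complex.I * t - 1 = σ + Complex.I * t := by ring
            rw [e]
            refine (norm_add_le _ _).trans ?_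
            rw [norm_mul, Complex.norm_I, one_mul, Complex.norm_real, Complex.norm_real,
              Real.norm_eq_abs, Real.norm_eq_abs, abs_of_pos hσ, abs_of_nonneg ht.1]
            linarith [ht.2])
          have e : (1 : ℂ) + σ + Complex.I * t - 1 = σ + Complex.I * t := by ring
          rw [e] at h5
          set L := LSeries (fun n => (f n : ℂ)) (1 + σ + Complex.I * t)
          have h6 : (Complex.exp (Complex.I * (t * T)) * L).re -
              (Complex.exp (Complex.I * (t * T)) / (σ + Complex.I * t)).re ≤ C := by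
            rw [← Complex.sub_re]
            refine (Complex.re_le_norm _).trans ?_
            have e7 : Complex.exp (Complex.I * (t * T)) * L -
                Complex.exp (Complex.I * (t * T)) / (σ + Complex.I * t) =
                Complex.exp (Complex.I * (t * T)) * (L - 1 / (σ + Complex.I * t)) := by ring
            have e8 : ‖Complex.exp (Complex.I * (t * T))‖ = 1 := by
              have : Complex.I * ((t : ℂ) * T) = ((t * T : ℝ) : ℂ) * Complex.I := by
                push_cast; ring
              rw [this, Complex.norm_exp_ofReal_mul_I]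
            rw [e7, norm_mul, e8, one_mul]
            exact h5
          linarith
        · exact absurd (by
            -- integrability from the series
            have hc : Continuous fun t : ℝ => (1 - t / ε) *
              (Complex.exp (Complex.I * (t * T)) *
                LSeries (fun n => (f n : ℂ)) (1 + σ + Complex.I * t)).re := by
              have hc1 : Continuous fun t : ℝ => ∑' n : ℕ,
                  f n * (n : ℝ) ^ (-(1 + σ)) * Real.cos (t * (T - Real.log n)) := by
                refine continuous_tsum (fun n => by fun_prop) (hs σ hσ) fun n t => ?_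
                have h7 : 0 ≤ f n * (n : ℝ) ^ (-(1 + σ)) :=
                  mul_nonneg (hf n) (Real.rpow_nonneg (Nat.cast_nonneg _) _)
                rw [norm_mul, Real.norm_eq_abs, Real.norm_eq_abs, abs_of_nonneg h7]
                exact mul_le_of_le_one_right h7 (Real.abs_cos_le_one _)
              have hc2 : (fun t : ℝ => (Complex.exp (Complex.I * (t * T)) *
                  LSeries (fun n => (f n : ℂ)) (1 + σ + Complex.I * t)).re) =
                  fun t : ℝ => ∑' n : ℕ,
                  f n * (n : ℝ) ^ (-(1 + σ)) * Real.cos (t * (T - Real.log n)) := by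
                ext t
                exact (series_re f0 (hs σ hσ) hf T t).tsum_eq.symm
              rw [← hc2] at hc1
              exact (by fun_prop : Continuous fun t : ℝ => 1 - t / ε).mul hc1
            exact hc.intervalIntegrable _ _) hI
    have hmain := main_part hε hσ T
    have hsplit : ∫ t in (0 : ℝ)..ε, (1 - t / ε) *
          ((Complex.exp (Complex.I * (t * T)) / (σ + Complex.I * t)).re + C) ≤
        A * π / 2 + ε * C := by
      have hint2 : IntervalIntegrable (fun t : ℝ => (1 - t / ε) *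
          (Complex.exp (Complex.I * (t * T)) / (σ + Complex.I * t)).re) volume 0 ε := by
        apply Continuous.intervalIntegrable
        have hne : ∀ t : ℝ, (σ : ℂ) + Complex.I * t ≠ 0 := by
          intro t h
          have := congrArg Complex.re h
          simp at this
          exact hσ.ne' this
        have h1 : Continuous fun t : ℝ =>
            Complex.exp (Complex.I * (t * T)) / ((σ : ℂ) + Complex.I * t) :=
          Continuous.div (by fun_prop) (by fun_prop) hne
        have h2 := Complex.continuous_re.comp h1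
        exact (by fun_prop : Continuous fun t : ℝ => 1 - t / ε).mul h2
      have hint3 : IntervalIntegrable (fun t : ℝ => (1 - t / ε) * C) volume 0 ε :=
        Continuous.intervalIntegrable (by fun_prop) _ _
      have e1 : ∫ t in (0 : ℝ)..ε, (1 - t / ε) *
          ((Complex.exp (Complex.I * (t * T)) / (σ + Complex.I * t)).re + C) =
          (∫ t in (0 : ℝ)..ε, (1 - t / ε) *
            (Complex.exp (Complex.I * (t * T)) / (σ + Complex.I * t)).re) +
          ∫ t in (0 : ℝ)..ε, (1 - t / ε) * C := by
        rw [← intervalIntegral.integral_add hint2 hint3]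
        apply intervalIntegral.integral_congr
        intro t _
        ring
      have e2 : ∫ t in (0 : ℝ)..ε, (1 - t / ε) * C ≤ ε * C := by
        calc ∫ t in (0 : ℝ)..ε, (1 - t / ε) * C ≤ ∫ t in (0 : ℝ)..ε, C := by
              apply intervalIntegral.integral_mono_on hε.le hint3 intervalIntegrable_const
              intro t ht
              have h3 : 0 ≤ t / ε := div_nonneg ht.1 hε.le
              nlinarith
          _ = ε * C := by rw [intervalIntegral.integral_const]; simp
      rw [e1]
      linarith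
    have hlow : ∑ n ∈ S, f n * (n : ℝ) ^ (-(1 + σ)) * (ε / 4) ≤
        ∑ n ∈ S, f n * (n : ℝ) ^ (-(1 + σ)) * (FK ε (T - Real.log n) / 2) := by
      apply Finset.sum_le_sum
      intro n hn
      have h7 : 0 ≤ f n * (n : ℝ) ^ (-(1 + σ)) :=
        mul_nonneg (hf n) (Real.rpow_nonneg (Nat.cast_nonneg _) _)
      apply mul_le_mul_of_nonneg_left _ h7
      have := FK_ge hε hε1 (hS n hn)
      linarith
    rw [← Finset.sum_mul] at hlow
    have h9 : (∑ n ∈ S, f n * (n : ℝ) ^ (-(1 + σ))) * (ε / 4) ≤ A * π / 2 + ε * C :=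
      hlow.trans (hfin.trans hsplit)
    rw [← le_div_iff₀ (by positivity)] at h9
    refine h9.trans (le_of_eq ?_)
    field_simp
    ring
  -- the limit `σ → 0`
  have hlim : Tendsto (fun σ : ℝ => ∑ n ∈ S, f n * (n : ℝ) ^ (-(1 + σ))) (𝓝[>] 0)
      (𝓝 (∑ n ∈ S, f n / n)) := by
    apply tendsto_finsetSum
    intro n _
    rcases Nat.eq_zero_or_pos n with rfl | hn
    · simp [f0]
    · have hn0 : (0 : ℝ) < n := by exact_mod_cast hn
      have h1 : Tendsto (fun σ : ℝ => f n * (n : ℝ) ^ (-(1 + σ))) (𝓝 0)
          (𝓝 (f n * (n : ℝ) ^ (-(1 + (0 : ℝ))))) := by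
        have hc : Continuous fun σ : ℝ => f n * (n : ℝ) ^ (-(1 + σ)) := by
          apply continuous_const.mul
          exact Real.continuous_const_rpow hn0.ne' |>.comp (by fun_prop)
        exact hc.tendsto 0
      have e : f n * (n : ℝ) ^ (-(1 + (0 : ℝ))) = f n / n := by
        rw [add_zero, Real.rpow_neg_one, div_eq_mul_inv]
      rw [e] at h1
      exact h1.mono_left nhdsWithin_le_nhds
  refine le_of_tendsto hlim ?_
  have : Ioc (0 : ℝ) ε ∈ 𝓝[>] (0 : ℝ) := Ioc_mem_nhdsGT hε
  filter_upwards [this] with σ hσ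
  exact key σ hσ.1 hσ.2

end P004N.H176
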