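import Vale.Agent.P004N.DefsL

/-!
# P004N: the sharp mean value for newforms with real coefficients (output of T3a + T3b,
input of T3c)
-/

open UpperHalfPlane
open scoped Real

namespace P004N

/-- the coefficients of `ζ^{(M)}(2s) ∑ λ(n)² n^{-s}`, `λ(n)² = b(n)² / n`, real `b` -/
noncomputable def bR (M : ℕ) (b : ℕ → ℝ) (k : ℕ) : ℝ :=
  ∑ n ∈ (Finset.Icc 1 k).filter (fun n => n ^ 2 ∣ k ∧ n.Coprime M),
    (b (k / n ^ 2)) ^ 2 / ((k / n ^ 2 : ℕ) : ℝ)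

/-- Rankin-Selberg for real coefficients -/
def StRSR : Prop := ∀ (M : ℕ) (g : ℍ → ℂ) (b : ℕ → ℝ), 0 < M → S2 M g →
  QE g (fun n => (b n : ℂ)) → b 1 = 1 → ∃ V C δ : ℝ, 0 < V ∧ 0 < δ ∧ ∀ x : ℝ, 1 ≤ x →
    |∑ k ∈ Finset.Icc 1 ⌊x⌋₊, bR M b k - V * x| ≤ C * x ^ (1 - δ)

end P004N
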