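import Vale.Agent.P004N.H176.Ana

/-!
# P004N, T3c: Mertens' theorem for the logarithmic derivative of a Dirichlet series with a sharp
mean value
-/

open Real Finset

namespace P004N.H176

/-- the partial sums -/
noncomputable def SS (β : ℕ → ℝ) (N : ℕ) : ℝ := ∑ k ∈ Icc 1 N, β k

lemma SS_zero (β : ℕ → ℝ) : SS β 0 = 0 := by simp [SS]

lemma SS_nonneg {β : ℕ → ℝ} (hβ : ∀ n, 0 ≤ β n) (N : ℕ) : 0 ≤ SS β N := sum_nonneg fun _ _ => hβ _

/-- the input in the form used below -/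
structure Inp (β : ℕ → ℝ) (V K d : ℝ) : Prop where
  V0 : 0 < V
  K0 : 0 ≤ K
  d0 : 0 < d
  d2 : d ≤ 1 / 2
  nn : ∀ n, 0 ≤ β n
  mv : ∀ y : ℝ, 0 < y → |SS β ⌊y⌋₊ - V * y| ≤ K * y ^ (1 - d)

theorem inp_of {β : ℕ → ℝ} {V C δ : ℝ} (hβ : ∀ n, 0 ≤ β n) (hV : 0 < V) (hδ : 0 < δ)
    (h : MV β V C δ) : Inp β V (C + V) (min δ (1 / 2)) := by
  have hC := h.C_nonneg
  refine ⟨hV, by positivity, lt_min hδ (by norm_num), min_le_right _ _, hβ, fun y hy => ?_⟩
  have hd1 : min δ (1 / 2) ≤ δ := min_le_left _ _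
  have hd2 : 0 < min δ (1 / 2) := lt_min hδ (by norm_num)
  have hd3 : min δ (1 / 2) ≤ 1 / 2 := min_le_right _ _
  set d := min δ (1 / 2)
  have hp : 0 < y ^ (1 - d) := Real.rpow_pos_of_pos hy _
  rcases le_or_gt 1 y with h1 | h1
  · refine (h y h1).trans ?_
    have e1 : y ^ (1 - δ) ≤ y ^ (1 - d) := Real.rpow_le_rpow_of_exponent_le h1 (by linarith)
    calc C * y ^ (1 - δ) ≤ C * y ^ (1 - d) := mul_le_mul_of_nonneg_left e1 hC
      _ ≤ (C + V) * y ^ (1 - d) := by
          apply mul_le_mul_of_nonneg_right _ hp.le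
          linarith
  · rw [Nat.floor_eq_zero.2 h1, SS_zero, zero_sub, abs_neg, abs_of_pos (by positivity)]
    have e1 : y ≤ y ^ (1 - d) := by
      conv_lhs => rw [← Real.rpow_one y]
      exact Real.rpow_le_rpow_of_exponent_ge hy h1.le (by linarith)
    calc V * y ≤ V * y ^ (1 - d) := mul_le_mul_of_nonneg_left e1 hV.le
      _ ≤ (C + V) * y ^ (1 - d) := by
          apply mul_le_mul_of_nonneg_right _ hp.le
          linarith

variable {β : ℕ → ℝ} {V K d : ℝ} (hi : Inp β V K d)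
include hi

theorem SS_div {N q : ℕ} (hN : 1 ≤ N) (hq : 1 ≤ q) :
    |SS β (N / q) - V * (N / q)| ≤ K * ((N : ℝ) / q) ^ (1 - d) := by
  have hN0 : (0 : ℝ) < N := by exact_mod_cast hN
  have hq0 : (0 : ℝ) < q := by exact_mod_cast hq
  have h := hi.mv ((N : ℝ) / q) (by positivity)
  rwa [Nat.floor_div_eq_div] at h

theorem SS_le (N : ℕ) : SS β N ≤ (V + K) * N := by
  rcases Nat.eq_zero_or_pos N with h0 | h0
  · rw [h0, SS_zero]; simp
  · have h := SS_div hi (N := N) (q := 1) h0 le_rfl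
    rw [Nat.div_one, Nat.cast_one, div_one] at h
    have hN : (1 : ℝ) ≤ N := by exact_mod_cast h0
    have e1 : (N : ℝ) ^ (1 - d) ≤ N := by
      conv_rhs => rw [← Real.rpow_one (N : ℝ)]
      exact Real.rpow_le_rpow_of_exponent_le hN (by linarith [hi.d0])
    have e2 := (abs_le.1 h).2
    have e3 := mul_le_mul_of_nonneg_left e1 hi.K0
    linarith

/-- the pointwise bound -/
theorem pt_le {k : ℕ} (hk : 1 ≤ k) : β k ≤ (V + 2 * K) * (k : ℝ) ^ (1 - d) := by
  have hk0 : (0 : ℝ) < k := by exact_mod_cast hk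
  have hk1 : (1 : ℝ) ≤ k := by exact_mod_cast hk
  have h1 := hi.mv k hk0
  rw [Nat.floor_natCast] at h1
  have e : β k = SS β k - SS β (k - 1) := by
    obtain ⟨j, rfl⟩ : ∃ j, k = j + 1 := ⟨k - 1, by omega⟩
    rw [SS, SS, Finset.sum_Icc_succ_top (by omega), Nat.add_sub_cancel, add_sub_cancel_left]
  have h2 : |SS β (k - 1) - V * (k - 1 : ℕ)| ≤ K * (k : ℝ) ^ (1 - d) := by
    rcases Nat.eq_zero_or_pos (k - 1) with h0 | h0
    · rw [h0, SS_zero]
      simp only [Nat.cast_zero, mul_zero, sub_zero, abs_zero]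
      exact mul_nonneg hi.K0 (Real.rpow_nonneg hk0.le _)
    · have h3 := hi.mv ((k - 1 : ℕ) : ℝ) (by exact_mod_cast h0)
      rw [Nat.floor_natCast] at h3
      refine h3.trans (mul_le_mul_of_nonneg_left ?_ hi.K0)
      exact Real.rpow_le_rpow (Nat.cast_nonneg _) (by exact_mod_cast Nat.sub_le k 1)
        (by linarith [hi.d2])
  have h3 : ((k - 1 : ℕ) : ℝ) = k - 1 := by rw [Nat.cast_sub hk, Nat.cast_one]
  rw [h3] at h2
  have h4 := (abs_le.1 h1).2
  have h5 := (abs_le.1 h2).1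
  have h6 : 1 ≤ (k : ℝ) ^ (1 - d) := Real.one_le_rpow hk1 (by linarith [hi.d2])
  have h7 : V * 1 ≤ V * (k : ℝ) ^ (1 - d) := mul_le_mul_of_nonneg_left h6 hi.V0.le
  rw [e]
  linarith

omit hi in
theorem log_sub_le {k N : ℕ} (hk : 1 ≤ k) (hkN : k ≤ N) :
    Real.log N - Real.log k ≤ ∑ j ∈ Ico k N, 1 / (j : ℝ) := by
  induction N, hkN using Nat.le_induction with
  | base => simp
  | succ n hn ih =>
    rw [Finset.sum_Ico_succ_top hn]
    have hn0 : (0 : ℝ) < n := by exact_mod_cast (by omega : 0 < n)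
    have h1 : Real.log ((n + 1 : ℕ) : ℝ) - Real.log n ≤ 1 / n := by
      rw [← Real.log_div (by positivity) hn0.ne']
      have h2 := Real.log_le_sub_one_of_pos (x := ((n + 1 : ℕ) : ℝ) / n) (by positivity)
      have h3 : ((n + 1 : ℕ) : ℝ) / n - 1 = 1 / n := by
        push_cast
        field_simp
        ring
      linarith
    linarith

/-- the sum of `β(k) log (N / k)` -/
theorem sum_log_div_le' (N : ℕ) :
    ∑ k ∈ Icc 1 N, β k * (Real.log N - Real.log k) ≤ (V + K) * N := by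
  have h1 : ∑ k ∈ Icc 1 N, β k * (Real.log N - Real.log k)
      ≤ ∑ k ∈ Icc 1 N, ∑ j ∈ Ico k N, β k * (1 / (j : ℝ)) := by
    apply sum_le_sum
    intro k hk
    rw [mem_Icc] at hk
    rw [← mul_sum]
    exact mul_le_mul_of_nonneg_left (log_sub_le hk.1 hk.2) (hi.nn _)
  have h2 : ∑ k ∈ Icc 1 N, ∑ j ∈ Ico k N, β k * (1 / (j : ℝ))
      = ∑ j ∈ Ico 1 N, ∑ k ∈ Icc 1 j, β k * (1 / (j : ℝ)) := by
    apply sum_comm'
    intro k j
    rw [mem_Icc, mem_Ico, mem_Ico, mem_Icc]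
    omega
  have h3 : ∑ j ∈ Ico 1 N, ∑ k ∈ Icc 1 j, β k * (1 / (j : ℝ))
      ≤ ∑ j ∈ Ico 1 N, (V + K) := by
    apply sum_le_sum
    intro j hj
    rw [mem_Ico] at hj
    have hj0 : (0 : ℝ) < j := by exact_mod_cast hj.1
    rw [← sum_mul, mul_one_div, div_le_iff₀ hj0]
    exact SS_le hi j
  have h4 : 0 ≤ V + K := add_nonneg hi.V0.le hi.K0
  rw [h2] at h1
  refine h1.trans (h3.trans ?_)
  rw [sum_const, Nat.card_Ico, nsmul_eq_mul, mul_comm]
  apply mul_le_mul_of_nonneg_left _ h4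
  exact_mod_cast Nat.sub_le _ _

theorem E1 {N : ℕ} (hN : 1 ≤ N) :
    |∑ k ∈ Icc 1 N, β k * Real.log k - V * N * Real.log N| ≤ (K / d + (V + K)) * N := by
  have hV := hi.V0
  have hK := hi.K0
  have hd := hi.d0
  have hN0 : (0 : ℝ) < N := by exact_mod_cast hN
  have hlog : 0 ≤ Real.log N := Real.log_nonneg (by exact_mod_cast hN)
  have h1 := sum_log_div_le' hi N
  have h0 : 0 ≤ ∑ k ∈ Icc 1 N, β k * (Real.log N - Real.log k) := by
    apply sum_nonneg
    intro k hk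
    rw [mem_Icc] at hk
    apply mul_nonneg (hi.nn _)
    rw [sub_nonneg]
    exact Real.log_le_log (by exact_mod_cast hk.1) (by exact_mod_cast hk.2)
  have h2 : ∑ k ∈ Icc 1 N, β k * (Real.log N - Real.log k)
      = SS β N * Real.log N - ∑ k ∈ Icc 1 N, β k * Real.log k := by
    rw [SS, sum_mul, ← sum_sub_distrib]
    exact sum_congr rfl fun k _ => by ring
  have h3 := SS_div hi (N := N) (q := 1) hN le_rfl
  rw [Nat.div_one, Nat.cast_one, div_one] at h3
  have h4 : |(SS β N - V * N) * Real.log N| ≤ K / d * N := by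
    rw [abs_mul, abs_of_nonneg hlog]
    have h5 : Real.log N ≤ (N : ℝ) ^ d / d := Real.log_le_rpow_div hN0.le hd
    calc |SS β N - V * N| * Real.log N ≤ (K * (N : ℝ) ^ (1 - d)) * ((N : ℝ) ^ d / d) :=
          mul_le_mul h3 h5 hlog (mul_nonneg hK (Real.rpow_nonneg hN0.le _))
      _ = K / d * ((N : ℝ) ^ (1 - d) * (N : ℝ) ^ d) := by ring
      _ = K / d * N := by rw [← Real.rpow_add hN0, sub_add_cancel, Real.rpow_one]
  rw [h2] at h1 h0
  have h6 := abs_le.1 h4
  have h7 : 0 ≤ K / d * N := by positivity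
  rw [abs_le]
  constructor
  · nlinarith [h6.1, h6.2]
  · nlinarith [h6.1, h6.2]

omit hi in
/-- the weighted sum from the window bound -/
theorem window {f : ℕ → ℝ} (hf : ∀ n, 0 ≤ f n) {C' : ℝ} (hC' : 0 ≤ C')
    (hw : ∀ (T : ℝ) (S : Finset ℕ), (∀ n ∈ S, |T - Real.log n| ≤ 1) → ∑ n ∈ S, f n / n ≤ C')
    {d : ℝ} (hd : 0 < d) (N : ℕ) :
    ∑ n ∈ Icc 1 N, f n / n * ((n : ℝ) / N) ^ d ≤ C' * (1 / (1 - Real.exp (-d))) := by
  rcases Nat.eq_zero_or_pos N with rfl | hN
  · have h1 : Real.exp (-d) < 1 := by rw [Real.exp_lt_one_iff]; linarith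
    have : 0 ≤ 1 / (1 - Real.exp (-d)) := by
      apply div_nonneg zero_le_one; linarith
    simpa using mul_nonneg hC' this
  have hN0 : (0 : ℝ) < N := by exact_mod_cast hN
  set J : ℕ → ℕ := fun n => ⌊Real.log N - Real.log n⌋₊ with hJ
  have hmap : ∀ n ∈ Icc 1 N, J n ∈ range (⌊Real.log N⌋₊ + 1) := by
    intro n hn
    rw [mem_Icc] at hn
    rw [mem_range, Nat.lt_succ_iff]
    apply Nat.floor_le_floor
    have : 0 ≤ Real.log n := Real.log_nonneg (by exact_mod_cast hn.1)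
    linarith
  rw [← sum_fiberwise_of_maps_to hmap]
  have h1 : ∀ j ∈ range (⌊Real.log N⌋₊ + 1),
      ∑ n ∈ (Icc 1 N).filter (fun n => J n = j), f n / n * ((n : ℝ) / N) ^ d ≤
        C' * Real.exp (-d) ^ j := by
    intro j _
    have h2 : ∀ n ∈ (Icc 1 N).filter (fun n => J n = j),
        (j : ℝ) ≤ Real.log N - Real.log n ∧ Real.log N - Real.log n < j + 1 := by
      intro n hn
      rw [mem_filter, mem_Icc] at hn
      have h3 : 0 ≤ Real.log N - Real.log n := by
        rw [sub_nonneg]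
        exact Real.log_le_log (by exact_mod_cast hn.1.1) (by exact_mod_cast hn.1.2)
      rw [← hn.2]
      exact ⟨Nat.floor_le h3, Nat.lt_floor_add_one _⟩
    have h3 := hw (Real.log N - j) ((Icc 1 N).filter (fun n => J n = j)) (by
      intro n hn
      have := h2 n hn
      rw [abs_le]
      constructor <;> linarith [this.1, this.2])
    calc ∑ n ∈ (Icc 1 N).filter (fun n => J n = j), f n / n * ((n : ℝ) / N) ^ d
        ≤ ∑ n ∈ (Icc 1 N).filter (fun n => J n = j), f n / n * Real.exp (-d) ^ j := by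
          apply sum_le_sum
          intro n hn
          have h4 := (h2 n hn).1
          rw [mem_filter, mem_Icc] at hn
          have hn0 : (0 : ℝ) < n := by exact_mod_cast hn.1.1
          apply mul_le_mul_of_nonneg_left _ (div_nonneg (hf n) hn0.le)
          rw [← Real.exp_nat_mul, Real.rpow_def_of_pos (by positivity),
            Real.log_div hn0.ne' hN0.ne']
          apply Real.exp_le_exp.2
          nlinarith
      _ = (∑ n ∈ (Icc 1 N).filter (fun n => J n = j), f n / n) * Real.exp (-d) ^ j := by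
          rw [sum_mul]
      _ ≤ C' * Real.exp (-d) ^ j := mul_le_mul_of_nonneg_right h3 (by positivity)
  refine (sum_le_sum h1).trans ?_
  rw [← mul_sum]
  apply mul_le_mul_of_nonneg_left _ hC'
  have h5 : Real.exp (-d) < 1 := by rw [Real.exp_lt_one_iff]; linarith
  have h6 := (Real.exp_pos (-d)).le
  rw [one_div, ← tsum_geometric_of_lt_one h6 h5]
  exact (summable_geometric_of_lt_one h6 h5).sum_le_tsum _ (fun _ _ => by positivity)

open ArithmeticFunction in
omit hi in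
/-- **Mertens' theorem** for `Lm`, `Lm * β = β log` -/
theorem mertens {β Lm : ArithmeticFunction ℝ} (hLm : ∀ n, 0 ≤ Lm n) (hb1 : β 1 = 1)
    (hconv : ∀ n, (Lm * β) n = β n * Real.log n) {V K d : ℝ} (hi : Inp β V K d) :
    ∃ C : ℝ, 0 ≤ C ∧ ∀ N : ℕ, 1 ≤ N → |∑ n ∈ Icc 1 N, Lm n / n - Real.log N| ≤ C := by
  have hV := hi.V0
  have hK := hi.K0
  have hd := hi.d0
  have hMV : MV β V K d := fun x hx => hi.mv x (by linarith)
  obtain ⟨C', hC', hw⟩ := cheb hi.nn hLm hb1 hconv hV hd hMV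
  have h5 : Real.exp (-d) < 1 := by rw [Real.exp_lt_one_iff]; linarith
  have h50 : 0 < 1 / (1 - Real.exp (-d)) := by
    apply div_pos one_pos; linarith
  refine ⟨(K / d + (V + K) + K * (C' * (1 / (1 - Real.exp (-d))))) / V, by positivity,
    fun N hN => ?_⟩
  have hN0 : (0 : ℝ) < N := by exact_mod_cast hN
  have h1 := E1 hi hN
  have hIcc : ∀ n : ℕ, Icc 1 n = Ioc 0 n := fun n => by
    ext k; rw [mem_Icc, mem_Ioc]; omega
  have h2 : ∑ k ∈ Icc 1 N, β k * Real.log k = ∑ n ∈ Icc 1 N, Lm n * SS β (N / n) := by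
    rw [sum_congr rfl (fun k _ => (hconv k).symm), hIcc, sum_Ioc_mul_eq_sum_sum]
    refine sum_congr rfl fun n _ => ?_
    rw [SS, hIcc]
  set Y := ∑ n ∈ Icc 1 N, Lm n / n with hY
  have e2 : |∑ n ∈ Icc 1 N, Lm n * SS β (N / n) - V * N * Y| ≤
      K * (C' * (1 / (1 - Real.exp (-d)))) * N := by
    have e3 : ∑ n ∈ Icc 1 N, Lm n * SS β (N / n) - V * N * Y
        = ∑ n ∈ Icc 1 N, Lm n * (SS β (N / n) - V * (N / n)) := by
      rw [hY, mul_sum, ← sum_sub_distrib]
      exact sum_congr rfl fun p _ => by ring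
    rw [e3]
    calc |∑ n ∈ Icc 1 N, Lm n * (SS β (N / n) - V * (N / n))|
        ≤ ∑ n ∈ Icc 1 N, |Lm n * (SS β (N / n) - V * (N / n))| := abs_sum_le_sum_abs _ _
      _ ≤ ∑ n ∈ Icc 1 N, K * N * (Lm n / n * ((n : ℝ) / N) ^ d) := by
          apply sum_le_sum
          intro n hn
          rw [mem_Icc] at hn
          have hn0 : (0 : ℝ) < n := by exact_mod_cast hn.1
          rw [abs_mul, abs_of_nonneg (hLm n)]
          have h6 := SS_div hi hN hn.1
          refine (mul_le_mul_of_nonneg_left h6 (hLm n)).trans (le_of_eq ?_)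
          rw [Real.rpow_sub (by positivity), Real.rpow_one, Real.div_rpow hN0.le hn0.le,
            Real.div_rpow hn0.le hN0.le]
          have h7 : (N : ℝ) ^ d ≠ 0 := (Real.rpow_pos_of_pos hN0 _).ne'
          have h8 : (n : ℝ) ^ d ≠ 0 := (Real.rpow_pos_of_pos hn0 _).ne'
          field_simp
      _ = K * N * ∑ n ∈ Icc 1 N, Lm n / n * ((n : ℝ) / N) ^ d := by rw [mul_sum]
      _ ≤ K * N * (C' * (1 / (1 - Real.exp (-d)))) :=
          mul_le_mul_of_nonneg_left (window hLm hC' hw hd N) (by positivity)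
      _ = _ := by ring
  have e5 : |V * N * (Y - Real.log N)|
      ≤ (K / d + (V + K) + K * (C' * (1 / (1 - Real.exp (-d))))) * N := by
    rw [h2] at h1
    have h6 := abs_le.1 h1
    have h7 := abs_le.1 e2
    rw [abs_le]
    constructor
    · nlinarith [h6.1, h6.2, h7.1, h7.2]
    · nlinarith [h6.1, h6.2, h7.1, h7.2]
  rw [abs_mul, abs_of_pos (mul_pos hV hN0)] at e5
  rw [le_div_iff₀ hV]
  have e6 : (|Y - Real.log N| * V) * N
      ≤ (K / d + (V + K) + K * (C' * (1 / (1 - Real.exp (-d))))) * N := by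
    refine le_trans (le_of_eq (by ring)) e5
  exact le_of_mul_le_mul_right e6 hN0

end P004N.H176
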