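import Vale.Agent.P004N.H176.Rel
import Vale.Agent.P004N.H176.Mer

/-!
# P004N, T3c: the function `Lm` with `Lm * bR = bR log`
-/

open Finset

namespace P004N.H176

/-- `bR` as an arithmetic function -/
noncomputable def bA (M : ℕ) (b : ℕ → ℝ) : ArithmeticFunction ℝ := ⟨bR M b, bR_zero M b⟩

theorem bA_apply (M : ℕ) (b : ℕ → ℝ) (k : ℕ) : bA M b k = bR M b k := rfl

open scoped Classical in
/-- the logarithmic derivative -/
noncomputable def lmA (M : ℕ) (b : ℕ → ℝ) : ArithmeticFunction ℝ :=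
  ⟨fun n => if IsPrimePow n then ww M b n.minFac (n.factorization n.minFac) * Real.log n.minFac
    else 0, by simp [not_isPrimePow_zero]⟩

theorem lmA_nonneg (M : ℕ) (b : ℕ → ℝ) (n : ℕ) : 0 ≤ lmA M b n := by
  change 0 ≤ if IsPrimePow n then _ else _
  split_ifs
  · exact mul_nonneg (ww_nonneg _ _ _ _) (Real.log_natCast_nonneg _)
  · exact le_rfl

theorem lmA_pp (M : ℕ) (b : ℕ → ℝ) {p m : ℕ} (hp : p.Prime) (hm : m ≠ 0) :
    lmA M b (p ^ m) = ww M b p m * Real.log p := by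
  change (if IsPrimePow (p ^ m) then _ else _) = _
  rw [if_pos (hp.isPrimePow.pow hm), hp.pow_minFac hm, hp.factorization_pow,
    Finsupp.single_eq_same]

theorem lmA_not (M : ℕ) (b : ℕ → ℝ) {n : ℕ} (hn : ¬ IsPrimePow n) : lmA M b n = 0 := by
  change (if IsPrimePow n then _ else _) = _
  rw [if_neg hn]

/-- the sum over the prime power divisors -/
theorem sum_pp {k : ℕ} (hk : k ≠ 0) (φ : ℕ → ℝ) (hφ : ∀ n, ¬ IsPrimePow n → φ n = 0) :
    ∑ d ∈ k.divisors, φ d =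
      ∑ p ∈ k.primeFactors, ∑ m ∈ Icc 1 (k.factorization p), φ (p ^ m) := by
  rw [sum_sigma']
  symm
  apply sum_bij_ne_zero (fun (x : Σ _ : ℕ, ℕ) _ _ => x.1 ^ x.2)
  · rintro ⟨p, m⟩ hx _
    rw [mem_sigma, mem_Icc, Nat.mem_primeFactors] at hx
    rw [Nat.mem_divisors]
    exact ⟨(hx.1.1.pow_dvd_iff_le_factorization hk).2 hx.2.2, hk⟩
  · rintro ⟨p, m⟩ hx _ ⟨q, n⟩ hy _ h
    rw [mem_sigma, mem_Icc, Nat.mem_primeFactors] at hx hy
    simp only at hx hy h
    have hm : m ≠ 0 := by omega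
    have hn : n ≠ 0 := by omega
    have h1 : p = q := by
      have h2 := congrArg Nat.minFac h
      rwa [hx.1.1.pow_minFac hm, hy.1.1.pow_minFac hn] at h2
    subst h1
    have h3 := Nat.pow_right_injective hx.1.1.two_le h
    rw [h3]
  · intro d hd h0
    have hpp : IsPrimePow d := by
      by_contra h
      exact h0 (hφ d h)
    rw [Nat.mem_divisors] at hd
    obtain ⟨p, m, hp, hm, rfl⟩ := (isPrimePow_nat_iff d).1 hpp
    refine ⟨⟨p, m⟩, ?_, h0, rfl⟩
    rw [mem_sigma, mem_Icc, Nat.mem_primeFactors]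
    exact ⟨⟨hp, (dvd_pow_self p hm.ne').trans hd.1, hk⟩, hm,
      (hp.pow_dvd_iff_le_factorization hk).1 hd.1⟩
  · intro _ _ _; rfl

open ArithmeticFunction in
/-- `Lm * bR = bR log` -/
theorem lmA_conv {M : ℕ} {b : ℕ → ℝ} (hr : Rel M b) (k : ℕ) :
    (lmA M b * bA M b) k = bA M b k * Real.log k := by
  rcases eq_or_ne k 0 with rfl | hk
  · simp
  rw [mul_apply, Nat.sum_divisorsAntidiagonal (fun x y => lmA M b x * bA M b y),
    sum_pp hk (fun d => lmA M b d * bA M b (k / d))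
      (fun n hn => by rw [lmA_not M b hn, zero_mul]),
    Real.log_nat_eq_sum_factorization, Finsupp.sum, Nat.support_factorization, mul_sum]
  apply sum_congr rfl
  intro p hp
  rw [Nat.mem_primeFactors] at hp
  have h1 := bR_local hr hp.1 hk
  calc ∑ m ∈ Icc 1 (k.factorization p), lmA M b (p ^ m) * bA M b (k / p ^ m)
      = (∑ m ∈ Icc 1 (k.factorization p), ww M b p m * bR M b (k / p ^ m)) * Real.log p := by
        rw [sum_mul]
        apply sum_congr rfl
        intro m hm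
        rw [mem_Icc] at hm
        rw [lmA_pp M b hp.1 (by omega), bA_apply]
        ring
    _ = _ := by
        rw [← h1, bA_apply]
        ring

/-- `w(p, m) ≤ m bR(p^m)` -/
theorem ww_le {M : ℕ} {b : ℕ → ℝ} (hr : Rel M b) {p m : ℕ} (hp : p.Prime) (hm : m ≠ 0) :
    ww M b p m ≤ m * bR M b (p ^ m) := by
  have h1 := bR_local hr hp (pow_ne_zero m hp.ne_zero)
  have h2 : (p ^ m).factorization p = m := by
    rw [hp.factorization_pow, Finsupp.single_eq_same]
  rw [h2] at h1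
  rw [h1]
  have h3 : ww M b p m = ww M b p m * bR M b (p ^ m / p ^ m) := by
    rw [Nat.div_self (pow_pos hp.pos m), bR_one hr, mul_one]
  rw [h3]
  exact single_le_sum (f := fun i => ww M b p i * bR M b (p ^ m / p ^ i))
    (fun i _ => mul_nonneg (ww_nonneg _ _ _ _) (bR_nonneg _ _ _))
    (mem_Icc.2 ⟨by omega, le_rfl⟩)

theorem ww_one {M : ℕ} {b : ℕ → ℝ} {p : ℕ} (hM : ¬ p ∣ M) : ww M b p 1 = b p ^ 2 / p := by
  rw [ww, if_neg hM]
  change (b p / √(p : ℝ)) ^ 2 = _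
  rw [div_pow, Real.sq_sqrt (Nat.cast_nonneg _)]

theorem vv_le (l : ℝ) (m : ℕ) : |vv l m| ≤ 2 * (1 + |l|) ^ m := by
  induction m using Nat.twoStepInduction with
  | zero => simp [vv]
  | one =>
    change |l| ≤ _
    rw [pow_one]
    have := abs_nonneg l
    linarith
  | more m ih1 ih2 =>
    change |l * vv l (m + 1) - vv l m| ≤ _
    have h0 := abs_nonneg l
    refine (abs_sub _ _).trans ?_
    rw [abs_mul]
    have h1 := mul_le_mul_of_nonneg_left ih2 h0
    have h2 : 0 ≤ 2 * (1 + |l|) ^ m := by positivity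
    have h3 : 2 * (1 + |l|) ^ (m + 2) = 2 * (1 + |l|) ^ m * (1 + 2 * |l| + |l| ^ 2) := by ring
    have h4 : |l| * (2 * (1 + |l|) ^ (m + 1)) = 2 * (1 + |l|) ^ m * (|l| + |l| ^ 2) := by ring
    rw [h3]
    rw [h4] at h1
    nlinarith

/-- large primes -/
theorem ww_le' {M : ℕ} {b : ℕ → ℝ} {p : ℕ} (hM : ¬ p ∣ M) (m : ℕ) :
    ww M b p m ≤ 4 * (2 * (1 + b p ^ 2 / p)) ^ m := by
  rw [ww, if_neg hM]
  have h1 := vv_le (b p / √(p : ℝ)) m
  have h2 : (1 + |b p / √(p : ℝ)|) ^ 2 ≤ 2 * (1 + b p ^ 2 / p) := by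
    have h3 : |b p / √(p : ℝ)| ^ 2 = b p ^ 2 / p := by
      rw [sq_abs, div_pow, Real.sq_sqrt (Nat.cast_nonneg _)]
    rw [← h3]
    nlinarith [sq_nonneg (1 - |b p / √(p : ℝ)|)]
  calc vv (b p / √(p : ℝ)) m ^ 2 = |vv (b p / √(p : ℝ)) m| ^ 2 := (sq_abs _).symm
    _ ≤ (2 * (1 + |b p / √(p : ℝ)|) ^ m) ^ 2 := pow_le_pow_left₀ (abs_nonneg _) h1 2
    _ = 4 * ((1 + |b p / √(p : ℝ)|) ^ 2) ^ m := by
        rw [mul_pow, ← pow_mul, ← pow_mul, mul_comm m 2]
        norm_num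
    _ ≤ _ := by
        apply mul_le_mul_of_nonneg_left _ (by norm_num)
        exact pow_le_pow_left₀ (by positivity) h2 m

end P004N.H176
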