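import Vale.Agent.P004N.H176.Tail
import Vale.Agent.P004N.H974.RSR

/-!
# P004N, T3c: Mertens' theorem for newforms
-/

namespace P004N.H176

/-- Module T3c-2 -/
theorem pfMertN : StMertN := mertN_of pfRSR

end P004N.H176
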