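import Vale.Agent.P004N.H176.Iface
import Vale.Agent.P004.H26.R.Loc361

/-!
# P004N, T3c: the Rankin-Selberg coefficients of a newform, local identities
-/

open Finset

namespace P004N.H176

open Vale.Agent.P004.H26.H361 (bet local_id)

/-- the relations between the coefficients of a newform -/
structure Rel (M : ℕ) (b : ℕ → ℝ) : Prop where
  pos : 0 < M
  zero : b 0 = 0
  one : b 1 = 1
  mul : ∀ m n : ℕ, m.Coprime n → b (m * n) = b m * b n
  good : ∀ p : ℕ, p.Prime → ¬ p ∣ M → ∀ k : ℕ,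
    b (p ^ (k + 2)) = b p * b (p ^ (k + 1)) - p * b (p ^ k)
  bad : ∀ p : ℕ, p.Prime → p ∣ M → ∀ k : ℕ, b (p ^ (k + 1)) = b p * b (p ^ k)
  bad1 : ∀ p : ℕ, p.Prime → p ∣ M → (b p) ^ 2 ≤ 1

theorem rel_of_NF {M : ℕ} {g : UpperHalfPlane → ℂ} {b : ℕ → ℝ} {ε : ℝ} (h : NF M g b ε) :
    Rel M b := by
  have hpow : ∀ p : ℕ, p.Prime → ∀ n : ℕ, ¬ p ∣ n → ∀ k : ℕ, b (p ^ k * n) = b (p ^ k) * b n := by
    intro p hp n hn k
    induction k using Nat.twoStepInduction with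
    | zero => rw [pow_zero, one_mul, h.one, one_mul]
    | one =>
      rw [pow_one]
      by_cases hM : p ∣ M
      · exact h.bad p hp hM n
      · have := h.good p hp hM n
        rwa [if_neg hn, add_zero] at this
    | more k ih1 ih2 =>
      have e1 : p ^ (k + 2) * n = p * (p ^ (k + 1) * n) := by ring
      have e2 : p ^ (k + 2) = p * p ^ (k + 1) := by ring
      have e3 : p ^ (k + 1) * n / p = p ^ k * n := by
        rw [show p ^ (k + 1) * n = p * (p ^ k * n) by ring, Nat.mul_div_cancel_left _ hp.pos]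
      have e4 : p ^ (k + 1) / p = p ^ k := by
        rw [pow_succ', Nat.mul_div_cancel_left _ hp.pos]
      by_cases hM : p ∣ M
      · rw [e1, h.bad p hp hM, e2, h.bad p hp hM, ih2]; ring
      · have h1 := h.good p hp hM (p ^ (k + 1) * n)
        have h2 := h.good p hp hM (p ^ (k + 1))
        rw [if_pos (Dvd.dvd.mul_right (dvd_pow_self p (by omega)) n), e3, ih1, ih2] at h1
        rw [if_pos (dvd_pow_self p (by omega)), e4] at h2
        rw [e1, e2]
        linear_combination h1 - b n * h2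
  refine ⟨h.pos, h.zero, h.one, ?_, ?_, ?_, ?_⟩
  · intro m
    induction m using Nat.recOnPosPrimePosCoprime with
    | prime_pow p n hp hn =>
      intro k hk
      refine hpow p hp k ?_ n
      intro hd
      have := Nat.Coprime.coprime_dvd_left (dvd_pow_self p hn.ne') hk
      exact hp.one_lt.ne' (Nat.Coprime.eq_one_of_dvd this hd)
    | zero =>
      intro k hk
      rw [Nat.coprime_zero_left] at hk
      rw [hk, mul_one, h.zero, zero_mul]
    | one => intro k _; rw [one_mul, h.one, one_mul]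
    | coprime x y hx hy hc ih1 ih2 =>
      intro k hk
      rw [Nat.coprime_mul_iff_left] at hk
      rw [mul_assoc, ih1 (y * k) (Nat.Coprime.mul_right hc hk.1), ih2 k hk.2, ih1 y hc]
      ring
  · intro p hp hM k
    have h2 := h.good p hp hM (p ^ (k + 1))
    have e4 : p ^ (k + 1) / p = p ^ k := by
      rw [pow_succ', Nat.mul_div_cancel_left _ hp.pos]
    rw [if_pos (dvd_pow_self p (by omega)), e4, ← pow_succ'] at h2
    rw [show k + 2 = k + 1 + 1 from rfl]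
    linarith
  · intro p hp hM k
    rw [pow_succ', h.bad p hp hM]
  · intro p hp hM
    by_cases h2 : p ^ 2 ∣ M
    · rw [h.bad2 p hp h2]; norm_num
    · rw [h.bad1 p hp hM h2]

/-- `λ(k)²` -/
noncomputable def ff (b : ℕ → ℝ) (k : ℕ) : ℝ := (b k) ^ 2 / (k : ℝ)

/-- the `n` prime to `M` with `n² ∣ k` -/
def sqd (M k : ℕ) : Finset ℕ := (Icc 1 k).filter (fun n => n ^ 2 ∣ k ∧ n.Coprime M)

theorem mem_sqd {M k n : ℕ} (hk : k ≠ 0) : n ∈ sqd M k ↔ n ^ 2 ∣ k ∧ n.Coprime M := by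
  unfold sqd
  rw [mem_filter, mem_Icc]
  refine ⟨fun h => h.2, fun h => ⟨⟨?_, ?_⟩, h⟩⟩
  · rcases Nat.eq_zero_or_pos n with h0 | h0
    · rw [h0, zero_pow (by norm_num)] at h
      exact absurd (Nat.eq_zero_of_zero_dvd h.1) hk
    · exact h0
  · have h1 := Nat.le_of_dvd (Nat.pos_of_ne_zero hk) h.1
    nlinarith [Nat.le_self_pow (two_ne_zero) n]

theorem bR_eq (M : ℕ) (b : ℕ → ℝ) (k : ℕ) : bR M b k = ∑ n ∈ sqd M k, ff b (k / n ^ 2) := rfl

theorem bR_zero (M : ℕ) (b : ℕ → ℝ) : bR M b 0 = 0 := by simp [bR]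

theorem bR_nonneg (M : ℕ) (b : ℕ → ℝ) (k : ℕ) : 0 ≤ bR M b k := by
  rw [bR_eq]
  exact sum_nonneg fun n _ => div_nonneg (sq_nonneg _) (Nat.cast_nonneg _)

/-- `λ(k)² ≤ bR k` -/
theorem ff_le_bR (M : ℕ) (b : ℕ → ℝ) {k : ℕ} (hk : k ≠ 0) : ff b k ≤ bR M b k := by
  rw [bR_eq]
  have h1 : (1 : ℕ) ∈ sqd M k := by
    rw [mem_sqd hk]
    exact ⟨by simp, Nat.coprime_one_left M⟩
  have h2 := single_le_sum (f := fun n => ff b (k / n ^ 2))
    (fun n _ => div_nonneg (sq_nonneg _) (Nat.cast_nonneg _)) h1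
  simpa using h2

/-- `λ(p^i)` -/
noncomputable def uu (b : ℕ → ℝ) (p i : ℕ) : ℝ := b (p ^ i) / √(p : ℝ) ^ i

/-- `α^m + α^{-m}`, `α + α^{-1} = l` -/
def vv (l : ℝ) : ℕ → ℝ
  | 0 => 2
  | 1 => l
  | m + 2 => l * vv l (m + 1) - vv l m

theorem uu_sq (b : ℕ → ℝ) (p i : ℕ) : uu b p i ^ 2 = ff b (p ^ i) := by
  unfold uu ff
  rw [div_pow, ← pow_mul, mul_comm i 2, pow_mul, Real.sq_sqrt (Nat.cast_nonneg _)]
  push_cast
  rfl

variable {M : ℕ} {b : ℕ → ℝ} (hr : Rel M b) {p : ℕ} (hp : p.Prime)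
include hr

theorem ff_mul {m n : ℕ} (h : m.Coprime n) : ff b (m * n) = ff b m * ff b n := by
  unfold ff
  rw [hr.mul _ _ h]
  push_cast
  rw [mul_pow, mul_div_mul_comm]

theorem uu_zero : uu b p 0 = 1 := by
  unfold uu
  rw [pow_zero, pow_zero, hr.one]
  norm_num

omit hr in
theorem uu_one : uu b p 1 = b p / √(p : ℝ) := by
  unfold uu
  rw [pow_one, pow_one]

include hp

theorem uu_rec (hM : ¬ p ∣ M) (k : ℕ) :
    uu b p (k + 2) = b p / √(p : ℝ) * uu b p (k + 1) - uu b p k := by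
  have hp0 : (0 : ℝ) < p := by exact_mod_cast hp.pos
  have hs : 0 < √(p : ℝ) := Real.sqrt_pos.2 hp0
  have h2 : (p : ℝ) = √(p : ℝ) ^ 2 := (Real.sq_sqrt hp0.le).symm
  unfold uu
  rw [hr.good p hp hM k]
  rw [pow_add, pow_add, pow_one]
  set s := √(p : ℝ) with hs'
  rw [h2]
  field_simp
  ring

/-- the part of the sum with `p ∤ n` -/
theorem sum_not (j : ℕ) {l : ℕ} (hl : ¬ p ∣ l) :
    ∑ n ∈ (sqd M (p ^ j * l)).filter (fun n => ¬ p ∣ n), ff b (p ^ j * l / n ^ 2)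
      = ff b (p ^ j) * ∑ n ∈ (sqd M l), ff b (l / n ^ 2) := by
  have hl0 : l ≠ 0 := fun h => hl (h ▸ dvd_zero p)
  have hk0 : p ^ j * l ≠ 0 := Nat.mul_ne_zero (pow_ne_zero _ hp.ne_zero) hl0
  have hset : (sqd M (p ^ j * l)).filter (fun n => ¬ p ∣ n) = sqd M l := by
    ext n
    rw [mem_filter, mem_sqd hk0, mem_sqd hl0]
    constructor
    · rintro ⟨⟨h1, hc⟩, h2⟩
      have h3 : (n ^ 2).Coprime (p ^ j) :=
        Nat.Coprime.pow _ _ ((Nat.Prime.coprime_iff_not_dvd hp).2 h2).symm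
      exact ⟨h3.dvd_of_dvd_mul_left h1, hc⟩
    · rintro ⟨h1, hc⟩
      refine ⟨⟨Dvd.dvd.mul_left h1 _, hc⟩, fun h2 => hl ?_⟩
      exact (Dvd.dvd.trans (Dvd.dvd.trans h2 (dvd_pow_self n two_ne_zero)) h1)
  rw [hset, mul_sum]
  refine sum_congr rfl fun n hn => ?_
  rw [mem_sqd hl0] at hn
  obtain ⟨⟨w, hw⟩, -⟩ := hn
  have hn0 : 0 < n ^ 2 := by
    rcases Nat.eq_zero_or_pos (n ^ 2) with h | h
    · rw [h, zero_mul] at hw; exact absurd hw hl0
    · exact h
  have e1 : p ^ j * l / n ^ 2 = p ^ j * w := by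
    rw [hw, Nat.mul_left_comm, Nat.mul_div_cancel_left _ hn0]
  have e2 : l / n ^ 2 = w := by rw [hw, Nat.mul_div_cancel_left _ hn0]
  rw [e1, e2]
  have hw1 : ¬ p ∣ w := fun h => hl (hw ▸ Dvd.dvd.mul_left h _)
  have hc : (p ^ j).Coprime w := Nat.Coprime.pow_left _ ((Nat.Prime.coprime_iff_not_dvd hp).2 hw1)
  exact ff_mul hr hc

omit hr in
/-- the part of the sum with `p ∣ n` -/
theorem sum_dvd (hM : ¬ p ∣ M) {k : ℕ} (hk : k ≠ 0) :
    ∑ n ∈ (sqd M (p ^ 2 * k)).filter (fun n => p ∣ n), ff b (p ^ 2 * k / n ^ 2)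
      = ∑ n ∈ (sqd M k), ff b (k / n ^ 2) := by
  have hk0 : p ^ 2 * k ≠ 0 := Nat.mul_ne_zero (pow_ne_zero _ hp.ne_zero) hk
  have hpM : p.Coprime M := (Nat.Prime.coprime_iff_not_dvd hp).2 hM
  have hset : (sqd M (p ^ 2 * k)).filter (fun n => p ∣ n) = (sqd M k).image (fun n => p * n) := by
    ext n
    rw [mem_filter, mem_sqd hk0, mem_image]
    constructor
    · rintro ⟨⟨h1, hc⟩, ⟨m, rfl⟩⟩
      refine ⟨m, ?_, rfl⟩
      rw [mem_sqd hk]
      rw [mul_pow] at h1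
      exact ⟨Nat.dvd_of_mul_dvd_mul_left (pow_pos hp.pos 2) h1, (Nat.coprime_mul_iff_left.1 hc).2⟩
    · rintro ⟨m, hm, rfl⟩
      rw [mem_sqd hk] at hm
      exact ⟨⟨by rw [mul_pow]; exact Nat.mul_dvd_mul_left _ hm.1,
        Nat.Coprime.mul_left hpM hm.2⟩, Dvd.intro m rfl⟩
  rw [hset, sum_image (fun x _ y _ h => Nat.eq_of_mul_eq_mul_left hp.pos h)]
  refine sum_congr rfl fun n hn => ?_
  rw [mul_pow, Nat.mul_div_mul_left _ _ (pow_pos hp.pos 2)]

/-- good primes -/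
theorem bR_mul (hM : ¬ p ∣ M) (j : ℕ) {l : ℕ} (hl : ¬ p ∣ l) :
    bR M b (p ^ j * l) = bet (uu b p) j * bR M b l := by
  have hl0 : l ≠ 0 := fun h => hl (h ▸ dvd_zero p)
  have small : ∀ j, j < 2 → bR M b (p ^ j * l) = uu b p j ^ 2 * bR M b l := by
    intro j hj
    have hk0 : p ^ j * l ≠ 0 := Nat.mul_ne_zero (pow_ne_zero _ hp.ne_zero) hl0
    rw [uu_sq, bR_eq M b l, ← sum_not hr hp j hl, bR_eq]
    rw [Finset.filter_true_of_mem]
    intro n hn hpn
    rw [mem_sqd hk0] at hn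
    have h1 : p ^ 2 ∣ p ^ j * l := Dvd.dvd.trans (pow_dvd_pow_of_dvd hpn 2) hn.1
    have h2 : p ^ 2 ∣ p ^ j :=
      ((Nat.Coprime.pow_left 2 ((Nat.Prime.coprime_iff_not_dvd hp).2 hl))).dvd_of_dvd_mul_right h1
    have := (Nat.pow_dvd_pow_iff_le_right hp.one_lt).1 h2
    omega
  induction j using Nat.twoStepInduction with
  | zero => exact small 0 (by norm_num)
  | one => exact small 1 (by norm_num)
  | more j ih _ =>
    have hk0 : p ^ j * l ≠ 0 := Nat.mul_ne_zero (pow_ne_zero _ hp.ne_zero) hl0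
    have e : p ^ 2 * (p ^ j * l) = p ^ (j + 2) * l := by rw [pow_add]; ring
    have h1 := sum_dvd (b := b) hp hM hk0
    have h2 := sum_not hr hp (j + 2) hl
    have h3 := Finset.sum_filter_add_sum_filter_not (sqd M (p ^ (j + 2) * l)) (fun n => p ∣ n)
      (fun n => ff b (p ^ (j + 2) * l / n ^ 2))
    rw [e] at h1
    rw [h1, h2, ← bR_eq, ← bR_eq, ← bR_eq] at h3
    have h5 : bet (uu b p) (j + 2) = uu b p (j + 2) ^ 2 + bet (uu b p) j := rfl
    rw [← h3, ih, h5, uu_sq]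
    ring

/-- bad primes -/
theorem bR_mul_bad (hM : p ∣ M) (j : ℕ) {l : ℕ} (hl : ¬ p ∣ l) :
    bR M b (p ^ j * l) = ff b p ^ j * bR M b l := by
  have hl0 : l ≠ 0 := fun h => hl (h ▸ dvd_zero p)
  have hk0 : p ^ j * l ≠ 0 := Nat.mul_ne_zero (pow_ne_zero _ hp.ne_zero) hl0
  have h1 : ∀ j, ff b (p ^ j) = ff b p ^ j := by
    intro j
    induction j with
    | zero => simp [ff, hr.one]
    | succ j ih =>
      rw [pow_succ (ff b p), ← ih]
      unfold ff
      rw [hr.bad p hp hM]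
      push_cast
      have hp0 : (0 : ℝ) < p := by exact_mod_cast hp.pos
      field_simp
      ring
  rw [bR_eq M b l, ← h1, ← sum_not hr hp j hl, bR_eq, Finset.filter_true_of_mem]
  intro n hn hpn
  rw [mem_sqd hk0] at hn
  exact hp.one_lt.ne' (Nat.Coprime.eq_one_of_dvd (Nat.Coprime.coprime_dvd_left hpn hn.2) hM)

omit hr hp in
open scoped Classical in
/-- the values `w(p, m)` of `Lm(p^m) / log p` -/
noncomputable def ww (M : ℕ) (b : ℕ → ℝ) (p m : ℕ) : ℝ :=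
  if p ∣ M then ff b p ^ m else vv (b p / √(p : ℝ)) m ^ 2

omit hr hp in
theorem ww_nonneg (M : ℕ) (b : ℕ → ℝ) (p m : ℕ) : 0 ≤ ww M b p m := by
  unfold ww
  split_ifs
  · exact pow_nonneg (div_nonneg (sq_nonneg _) (Nat.cast_nonneg _)) _
  · exact sq_nonneg _

/-- **the identity at one prime** -/
theorem bR_local {k : ℕ} (hk : k ≠ 0) :
    (k.factorization p : ℝ) * bR M b k
      = ∑ m ∈ Icc 1 (k.factorization p), ww M b p m * bR M b (k / p ^ m) := by
  set j := k.factorization p with hj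
  set l := k / p ^ j with hl'
  have hkl : p ^ j * l = k := Nat.ordProj_mul_ordCompl_eq_self k p
  have hl : ¬ p ∣ l := Nat.not_dvd_ordCompl hp hk
  have h3 : ∀ m ∈ Icc 1 j, k / p ^ m = p ^ (j - m) * l := by
    intro m hm
    rw [mem_Icc] at hm
    conv_lhs => rw [← hkl]
    have : p ^ j = p ^ m * p ^ (j - m) := by rw [← pow_add]; congr 1; omega
    rw [this, mul_assoc, Nat.mul_div_cancel_left _ (pow_pos hp.pos m)]
  by_cases hM : p ∣ M
  · have h2 : bR M b k = ff b p ^ j * bR M b l := by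
      conv_lhs => rw [← hkl]
      exact bR_mul_bad hr hp hM j hl
    have h4 : ∀ m ∈ Icc 1 j, ww M b p m * bR M b (k / p ^ m) = ff b p ^ j * bR M b l := by
      intro m hm
      rw [h3 m hm, bR_mul_bad hr hp hM (j - m) hl, ww, if_pos hM, ← mul_assoc, ← pow_add]
      rw [mem_Icc] at hm
      rw [Nat.add_sub_cancel' hm.2]
    rw [sum_congr rfl h4, sum_const, Nat.card_Icc, nsmul_eq_mul, h2, Nat.add_sub_cancel]
  · have h1 := local_id (uu_zero hr (p := p)) uu_one (uu_rec hr hp hM)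
      (show vv (b p / √(p : ℝ)) 0 = 2 from rfl) (show vv (b p / √(p : ℝ)) 1 = _ from rfl)
      (fun _ => rfl) j
    have h2 : bR M b k = bet (uu b p) j * bR M b l := by
      conv_lhs => rw [← hkl]
      exact bR_mul hr hp hM j hl
    rw [h2, ← mul_assoc, h1, sum_mul]
    refine sum_congr rfl fun m hm => ?_
    rw [h3 m hm, bR_mul hr hp hM (j - m) hl, mul_assoc, ww, if_neg hM]

omit hp in
theorem bR_one : bR M b 1 = 1 := by
  have h1 : sqd M 1 = {1} := by
    ext n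
    rw [mem_sqd one_ne_zero, mem_singleton]
    constructor
    · rintro ⟨h, -⟩
      have h2 := Nat.dvd_one.1 h
      exact (Nat.pow_eq_one.1 h2).resolve_right two_ne_zero
    · rintro rfl; exact ⟨by simp, Nat.coprime_one_left M⟩
  rw [bR_eq, h1, sum_singleton]
  simp [ff, hr.one]

end P004N.H176
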