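import Vale.Agent.P004N.H176.Lam
import Vale.Agent.P004E.H185.Mer

/-!
# P004N, T3c: the prime powers, Mertens' theorem for `b(p)²`
-/

open Finset

namespace P004N.H176

open P004E.H185.Mer (pr mem_pr mertens_one)

variable {M : ℕ} {b : ℕ → ℝ} {V K d : ℝ}

/-- the non-primes are prime powers -/
theorem nonprime_le (M : ℕ) (b : ℕ → ℝ) (N : ℕ) :
    ∑ n ∈ (Icc 1 N).filter (fun n => ¬ n.Prime), lmA M b n / n ≤
      ∑ p ∈ pr N, ∑ m ∈ Icc 2 N, lmA M b (p ^ m) / ((p ^ m : ℕ) : ℝ) := by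
  have hnn : ∀ n : ℕ, 0 ≤ lmA M b n / n := fun n => div_nonneg (lmA_nonneg _ _ _) (Nat.cast_nonneg _)
  rw [← sum_filter_ne_zero, ← sum_product' (f := fun p m => lmA M b (p ^ m) / ((p ^ m : ℕ) : ℝ))]
  have hinj : Set.InjOn (fun x : ℕ × ℕ => x.1 ^ x.2) ((pr N ×ˢ Icc 2 N : Finset (ℕ × ℕ)) : Set (ℕ × ℕ)) := by
    rintro ⟨p, m⟩ hx ⟨q, n⟩ hy h
    rw [mem_coe, mem_product, mem_pr, mem_Icc] at hx hy
    simp only at hx hy h
    have hm : m ≠ 0 := by omega
    have hn : n ≠ 0 := by omega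
    have h1 : p = q := by
      have h2 := congrArg Nat.minFac h
      rwa [hx.1.1.pow_minFac hm, hy.1.1.pow_minFac hn] at h2
    subst h1
    have h3 := Nat.pow_right_injective hx.1.1.two_le h
    rw [h3]
  have hsum := sum_image (f := fun n : ℕ => lmA M b n / n) hinj
  refine le_trans ?_ (le_of_eq hsum)
  apply sum_le_sum_of_subset_of_nonneg
  · intro n hn
    rw [mem_filter, mem_filter, mem_Icc] at hn
    obtain ⟨⟨⟨hn1, hn2⟩, hn3⟩, hn4⟩ := hn
    have hpp : IsPrimePow n := by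
      by_contra h
      apply hn4
      rw [lmA_not M b h, zero_div]
    obtain ⟨p, m, hp, hm, rfl⟩ := (isPrimePow_nat_iff n).1 hpp
    rw [mem_image]
    refine ⟨(p, m), ?_, rfl⟩
    have hm1 : m ≠ 1 := by
      rintro rfl
      rw [pow_one] at hn3
      exact hn3 hp
    have h1 : m < p ^ m := Nat.lt_pow_self hp.one_lt
    have h2 : p ≤ p ^ m := Nat.le_self_pow hm.ne' p
    rw [mem_product, mem_pr, mem_Icc]
    exact ⟨⟨hp, h2.trans hn2⟩, by omega, by omega⟩
  · intro n _ _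
    exact hnn n

/-- each prime: convergence of the sum over the powers -/
theorem each_prime (hr : Rel M b) (hi : Inp (bR M b) V K d) {p : ℕ} (hp : p.Prime) :
    ∃ E : ℝ, 0 ≤ E ∧ ∀ N : ℕ, ∑ m ∈ Icc 2 N, lmA M b (p ^ m) / ((p ^ m : ℕ) : ℝ) ≤ E := by
  have hp1 : (1 : ℝ) < p := by exact_mod_cast hp.one_lt
  have hp0 : (0 : ℝ) < p := by linarith
  set r : ℝ := (p : ℝ) ^ (-d) with hr0
  have hr1 : 0 < r := Real.rpow_pos_of_pos hp0 _
  have hr2 : r < 1 := Real.rpow_lt_one_of_one_lt_of_neg hp1 (by linarith [hi.d0])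
  have hs : Summable (fun m : ℕ => (m : ℝ) * r ^ m) := by
    have := summable_pow_mul_geometric_of_norm_lt_one 1 (r := r) (by
      rw [Real.norm_eq_abs, abs_of_pos hr1]; exact hr2)
    simpa using this
  have hC0 : 0 ≤ V + 2 * K := by have := hi.V0; have := hi.K0; linarith
  have hlog : 0 ≤ Real.log p := Real.log_nonneg hp1.le
  have hnn : ∀ m : ℕ, 0 ≤ (m : ℝ) * r ^ m := fun m => by positivity
  refine ⟨(V + 2 * K) * Real.log p * ∑' m : ℕ, (m : ℝ) * r ^ m,
    mul_nonneg (mul_nonneg hC0 hlog) (tsum_nonneg hnn), fun N => ?_⟩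
  calc ∑ m ∈ Icc 2 N, lmA M b (p ^ m) / ((p ^ m : ℕ) : ℝ)
      ≤ ∑ m ∈ Icc 2 N, (V + 2 * K) * Real.log p * ((m : ℝ) * r ^ m) := by
        apply sum_le_sum
        intro m hm
        rw [mem_Icc] at hm
        have hm0 : m ≠ 0 := by omega
        rw [lmA_pp M b hp hm0]
        have h1 := ww_le hr hp hm0
        have h2 := pt_le hi (Nat.one_le_pow m p hp.pos)
        have h3 : (((p ^ m : ℕ) : ℝ)) ^ (1 - d) = (p : ℝ) ^ m * r ^ m := by
          have h4 : (0 : ℝ) ≤ (p : ℝ) ^ m := by positivity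
          push_cast
          rw [Real.rpow_sub (by positivity), Real.rpow_one, hr0, Real.rpow_neg hp0.le, inv_pow,
            ← Real.rpow_natCast_mul hp0.le, mul_comm, Real.rpow_mul_natCast hp0.le]
          rw [mul_comm]
          field_simp
        have hpm : (0 : ℝ) < ((p ^ m : ℕ) : ℝ) := by exact_mod_cast pow_pos hp.pos m
        rw [div_le_iff₀ hpm]
        have h5 : ww M b p m ≤ m * ((V + 2 * K) * ((p : ℝ) ^ m * r ^ m)) := by
          refine h1.trans (mul_le_mul_of_nonneg_left ?_ (Nat.cast_nonneg _))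
          rw [← h3]
          exact h2
        have h6 := mul_le_mul_of_nonneg_right h5 hlog
        refine h6.trans (le_of_eq ?_)
        push_cast
        ring
    _ = (V + 2 * K) * Real.log p * ∑ m ∈ Icc 2 N, ((m : ℝ) * r ^ m) := by rw [mul_sum]
    _ ≤ _ := by
        apply mul_le_mul_of_nonneg_left _ (mul_nonneg hC0 hlog)
        exact hs.sum_le_tsum _ (fun m _ => hnn m)

/-- large primes -/
theorem large_prime {p : ℕ} (hp : p.Prime) (hM : ¬ p ∣ M)
    (hq : 2 * (1 + b p ^ 2 / p) / p ≤ 1 / 2) (N : ℕ) :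
    ∑ m ∈ Icc 2 N, lmA M b (p ^ m) / ((p ^ m : ℕ) : ℝ) ≤
      8 * (2 * (1 + b p ^ 2 / p) / p) ^ 2 * Real.log p := by
  have hp1 : (1 : ℝ) < p := by exact_mod_cast hp.one_lt
  have hp0 : (0 : ℝ) < p := by linarith
  have hlog : 0 ≤ Real.log p := Real.log_nonneg hp1.le
  set q : ℝ := 2 * (1 + b p ^ 2 / p) / p with hqd
  have hq0 : 0 ≤ q := by positivity
  have h1 : ∀ m ∈ Icc 2 N, lmA M b (p ^ m) / ((p ^ m : ℕ) : ℝ) ≤ 4 * Real.log p * q ^ m := by
    intro m hm
    rw [mem_Icc] at hm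
    rw [lmA_pp M b hp (by omega)]
    have h2 := ww_le' (b := b) hM m
    have hpm : (0 : ℝ) < (p : ℝ) ^ m := by positivity
    push_cast
    rw [div_le_iff₀ hpm]
    have h3 : q ^ m * (p : ℝ) ^ m = (2 * (1 + b p ^ 2 / p)) ^ m := by
      rw [← mul_pow, hqd, div_mul_cancel₀ _ hp0.ne']
    calc ww M b p m * Real.log p ≤ 4 * (2 * (1 + b p ^ 2 / p)) ^ m * Real.log p :=
          mul_le_mul_of_nonneg_right h2 hlog
      _ = 4 * Real.log p * q ^ m * (p : ℝ) ^ m := by rw [← h3]; ring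
  refine (sum_le_sum h1).trans ?_
  rw [← mul_sum]
  have h4 : ∑ m ∈ Icc 2 N, q ^ m ≤ 2 * q ^ 2 := by
    have h5 : ∀ n : ℕ, ∑ m ∈ Icc 2 n, q ^ m ≤ 2 * q ^ 2 - 2 * q ^ (n + 1) + (if n = 0 then 2 * q else 0) := by
      intro n
      induction n with
      | zero => simp; nlinarith
      | succ n ih =>
        rcases Nat.eq_zero_or_pos n with rfl | hn
        · simp
        · rw [if_neg hn.ne'] at ih
          rw [Finset.sum_Icc_succ_top (by omega), if_neg (by omega)]
          have h6 : q ^ (n + 1 + 1) ≤ q ^ (n + 1) * (1 / 2) := by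
            rw [pow_succ]
            exact mul_le_mul_of_nonneg_left hq (by positivity)
          linarith
    have h6 := h5 N
    rcases Nat.eq_zero_or_pos N with rfl | hN
    · simp; positivity
    · rw [if_neg hN.ne'] at h6
      have : 0 ≤ q ^ (N + 1) := by positivity
      linarith
  calc 4 * Real.log p * ∑ m ∈ Icc 2 N, q ^ m ≤ 4 * Real.log p * (2 * q ^ 2) :=
        mul_le_mul_of_nonneg_left h4 (by positivity)
    _ = _ := by ring

/-- convergence of `∑ β(n) n^{-1-σ}` -/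
theorem beta_summable (hi : Inp (bR M b) V K d) {σ : ℝ} (hσ : 0 < σ) :
    Summable (fun n : ℕ => bR M b n * (n : ℝ) ^ (-(1 + σ))) := by
  have hMV : MV (bR M b) V K d := fun x hx => hi.mv x (by linarith)
  have h1 := (L_summable hMV hi.V0 hi.d0 hi.nn (s := ((1 + σ : ℝ) : ℂ))
    (by rw [Complex.ofReal_re]; linarith)).norm
  refine h1.congr fun n => ?_
  rcases Nat.eq_zero_or_pos n with rfl | hn
  · simp [bR_zero]
  · rw [LSeries.norm_term_eq, if_neg hn.ne', Complex.norm_real, Real.norm_eq_abs,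
      abs_of_nonneg (hi.nn n), Real.rpow_neg (Nat.cast_nonneg n), Complex.ofReal_re, div_eq_mul_inv]

/-- `b(p)² / p = bR p` at the good primes -/
theorem bR_prime (hr : Rel M b) {p : ℕ} (hp : p.Prime) (hM : ¬ p ∣ M) :
    bR M b p = b p ^ 2 / p := by
  have h := bR_mul hr hp hM 1 (l := 1) (fun h => hp.one_lt.ne' (Nat.dvd_one.1 h))
  rw [pow_one, mul_one, bR_one hr, mul_one] at h
  rw [h]
  change uu b p 1 ^ 2 = _
  rw [uu_one, div_pow, Real.sq_sqrt (Nat.cast_nonneg _)]

/-- **the prime powers** -/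
theorem nonprime_bound (hr : Rel M b) (hi : Inp (bR M b) V K d) :
    ∃ C : ℝ, 0 ≤ C ∧ ∀ N : ℕ,
      ∑ n ∈ (Icc 1 N).filter (fun n => ¬ n.Prime), lmA M b n / n ≤ C := by
  classical
  have hd := hi.d0
  have hC0 : 0 ≤ V + 2 * K := by have := hi.V0; have := hi.K0; linarith
  set C0 := V + 2 * K with hC0d
  -- the exceptional primes
  obtain ⟨P0, hP0⟩ : ∃ P0 : ℕ, ∀ p : ℕ, P0 ≤ p → 2 * (1 + C0) * (p : ℝ) ^ (-d) ≤ 1 / 2 := by
    have h1 : Filter.Tendsto (fun p : ℕ => 2 * (1 + C0) * (p : ℝ) ^ (-d)) Filter.atTop (nhds 0) := by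
      have h2 : Filter.Tendsto (fun p : ℕ => (p : ℝ) ^ (-d)) Filter.atTop (nhds 0) :=
        (tendsto_rpow_neg_atTop hd).comp tendsto_natCast_atTop_atTop
      simpa using h2.const_mul (2 * (1 + C0))
    have h3 := h1.eventually_le_const (show (0 : ℝ) < 1 / 2 by norm_num)
    obtain ⟨P0, h⟩ := Filter.eventually_atTop.1 h3
    exact ⟨P0, h⟩
  set P1 := max P0 (M + 1) with hP1
  choose! E hE0 hE using fun (p : ℕ) (hp : p.Prime) => each_prime hr hi hp
  set D : ℕ → ℝ := fun n => 64 * (1 + C0) / d *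
    ((1 + bR M b n) * (n : ℝ) ^ (-(1 + d / 2))) with hD
  have hDs : Summable D := by
    apply Summable.mul_left
    have h1 := beta_summable hi (half_pos hd)
    have h2 : Summable (fun n : ℕ => (n : ℝ) ^ (-(1 + d / 2))) :=
      Real.summable_nat_rpow.2 (by linarith)
    refine (h2.add h1).congr fun n => ?_
    ring
  have hDnn : ∀ n, 0 ≤ D n := by
    intro n
    have := hi.nn n
    have : 0 ≤ (n : ℝ) ^ (-(1 + d / 2)) := Real.rpow_nonneg (Nat.cast_nonneg _) _
    positivity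
  refine ⟨∑ p ∈ (range P1).filter Nat.Prime, E p + ∑' n, D n,
    add_nonneg (sum_nonneg fun p hp => hE0 p (mem_filter.1 hp).2) (tsum_nonneg hDnn), fun N => ?_⟩
  refine (nonprime_le M b N).trans ?_
  rw [← sum_filter_add_sum_filter_not (pr N) (fun p => p < P1)]
  apply add_le_add
  · calc ∑ p ∈ (pr N).filter (fun p => p < P1), ∑ m ∈ Icc 2 N, lmA M b (p ^ m) / ((p ^ m : ℕ) : ℝ)
        ≤ ∑ p ∈ (pr N).filter (fun p => p < P1), E p := by
          apply sum_le_sum
          intro p hp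
          rw [mem_filter, mem_pr] at hp
          exact hE p hp.1.1 N
      _ ≤ ∑ p ∈ (range P1).filter Nat.Prime, E p := by
          apply sum_le_sum_of_subset_of_nonneg
          · intro p hp
            rw [mem_filter, mem_pr] at hp
            rw [mem_filter, mem_range]
            exact ⟨hp.2, hp.1.1⟩
          · intro p hp _
            exact hE0 p (mem_filter.1 hp).2
  · calc ∑ p ∈ (pr N).filter (fun p => ¬ p < P1), ∑ m ∈ Icc 2 N, lmA M b (p ^ m) / ((p ^ m : ℕ) : ℝ)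
        ≤ ∑ p ∈ (pr N).filter (fun p => ¬ p < P1), D p := by
          apply sum_le_sum
          intro p hp
          rw [mem_filter, mem_pr, not_lt] at hp
          obtain ⟨⟨hp, -⟩, hpP⟩ := hp
          have hp1 : (1 : ℝ) < p := by exact_mod_cast hp.one_lt
          have hp0 : (0 : ℝ) < p := by linarith
          have hpM : ¬ p ∣ M := by
            intro h
            have h1 := Nat.le_of_dvd hr.pos h
            have h2 := (le_max_right P0 (M + 1)).trans hpP
            omega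
          have hβ := bR_prime hr hp hpM
          have h1 := pt_le hi hp.one_lt.le
          have h2 := hP0 p ((le_max_left P0 (M + 1)).trans hpP)
          have h3 : (p : ℝ) ^ (1 - d) = p * (p : ℝ) ^ (-d) := by
            rw [sub_eq_add_neg, Real.rpow_add hp0, Real.rpow_one]
          have hx0 : 0 < (p : ℝ) ^ (-d) := Real.rpow_pos_of_pos hp0 _
          have h4 : 1 ≤ p * (p : ℝ) ^ (-d) := by
            rw [← h3]
            exact Real.one_le_rpow hp1.le (by linarith [hi.d2])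
          have hβ0 := hi.nn p
          have h5 : 2 * (1 + b p ^ 2 / p) / p ≤ 2 * (1 + C0) * (p : ℝ) ^ (-d) := by
            rw [← hβ, div_le_iff₀ hp0]
            rw [h3] at h1
            nlinarith
          have h6 := large_prime (b := b) hp hpM (h5.trans h2) N
          refine h6.trans ?_
          have h7 : Real.log p ≤ (p : ℝ) ^ (d / 2) / (d / 2) :=
            Real.log_le_rpow_div hp0.le (by linarith)
          have hlog : 0 ≤ Real.log p := Real.log_nonneg hp1.le
          have h8 : 0 ≤ 2 * (1 + b p ^ 2 / p) / p := by positivity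
          calc 8 * (2 * (1 + b p ^ 2 / p) / p) ^ 2 * Real.log p
              = 8 * (2 * (1 + b p ^ 2 / p) / p) * ((2 * (1 + b p ^ 2 / p) / p) * Real.log p) := by
                ring
            _ ≤ 8 * (2 * (1 + b p ^ 2 / p) / p) *
                ((2 * (1 + C0) * (p : ℝ) ^ (-d)) * ((p : ℝ) ^ (d / 2) / (d / 2))) := by
                apply mul_le_mul_of_nonneg_left _ (by positivity)
                exact mul_le_mul h5 h7 hlog (by positivity)
            _ = D p := by
                rw [hD, ← hβ]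
                simp only
                have e1 : (p : ℝ) ^ (-(1 + d / 2)) = (p : ℝ) ^ (-d) * (p : ℝ) ^ (d / 2) / p := by
                  rw [← Real.rpow_add hp0, eq_div_iff hp0.ne', ← Real.rpow_add_one hp0.ne']
                  congr 1
                  ring
                rw [e1]
                field_simp
                ring
      _ ≤ ∑' n, D n := hDs.sum_le_tsum _ (fun n _ => hDnn n)

/-- **Mertens' theorem for `b(p)²`** -/
theorem mert_primes (hr : Rel M b) (hi : Inp (bR M b) V K d) :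
    ∃ C : ℝ, 0 ≤ C ∧ ∀ N : ℕ, 1 ≤ N →
      |∑ p ∈ (pr N).filter (fun p => ¬ p ∣ M), ((b p) ^ 2 / p - 1) * Real.log p / p| ≤ C := by
  obtain ⟨C1, hC1, h1⟩ := mertens (lmA_nonneg M b) (by rw [bA_apply]; exact bR_one hr)
    (lmA_conv hr) (β := bA M b) hi
  obtain ⟨C2, hC2, h2⟩ := nonprime_bound hr hi
  obtain ⟨C3, hC3, h3⟩ := mertens_one
  set C4 : ℝ := ∑ p ∈ M.primeFactors, lmA M b p / p with hC4
  have hC40 : 0 ≤ C4 := sum_nonneg fun p _ => div_nonneg (lmA_nonneg _ _ _) (Nat.cast_nonneg _)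
  set C5 : ℝ := ∑ p ∈ M.primeFactors, Real.log p / p with hC5
  have hC50 : 0 ≤ C5 := sum_nonneg fun p _ => div_nonneg (Real.log_natCast_nonneg _) (Nat.cast_nonneg _)
  refine ⟨C1 + C2 + C3 + C4 + C5, by positivity, fun N hN => ?_⟩
  -- the sum over all `n`
  have e1 : ∑ n ∈ Icc 1 N, lmA M b n / n = ∑ p ∈ pr N, lmA M b p / p +
      ∑ n ∈ (Icc 1 N).filter (fun n => ¬ n.Prime), lmA M b n / n := by
    rw [pr, sum_filter_add_sum_filter_not]
  have hn0 : 0 ≤ ∑ n ∈ (Icc 1 N).filter (fun n => ¬ n.Prime), lmA M b n / n :=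
    sum_nonneg fun p _ => div_nonneg (lmA_nonneg _ _ _) (Nat.cast_nonneg _)
  have hsplit : ∀ φ : ℕ → ℝ, (∀ p, 0 ≤ φ p) →
      0 ≤ ∑ p ∈ pr N, φ p - ∑ p ∈ (pr N).filter (fun p => ¬ p ∣ M), φ p ∧
      ∑ p ∈ pr N, φ p - ∑ p ∈ (pr N).filter (fun p => ¬ p ∣ M), φ p ≤
        ∑ p ∈ M.primeFactors, φ p := by
    intro φ hφ
    have h4 := sum_filter_add_sum_filter_not (pr N) (fun p => p ∣ M) φ
    have h5 : ∑ p ∈ (pr N).filter (fun p => p ∣ M), φ p ≤ ∑ p ∈ M.primeFactors, φ p := by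
      apply sum_le_sum_of_subset_of_nonneg
      · intro p hp
        rw [mem_filter, mem_pr] at hp
        rw [Nat.mem_primeFactors]
        exact ⟨hp.1.1, hp.2, hr.pos.ne'⟩
      · intro p _ _; exact hφ p
    have h6 : 0 ≤ ∑ p ∈ (pr N).filter (fun p => p ∣ M), φ p := sum_nonneg fun p _ => hφ p
    constructor <;> linarith
  have h4 := hsplit (fun p => lmA M b p / p)
    (fun p => div_nonneg (lmA_nonneg _ _ _) (Nat.cast_nonneg _))
  have h5 := hsplit (fun p => Real.log p / p)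
    (fun p => div_nonneg (Real.log_natCast_nonneg _) (Nat.cast_nonneg _))
  have e2 : ∑ p ∈ (pr N).filter (fun p => ¬ p ∣ M), ((b p) ^ 2 / p - 1) * Real.log p / p =
      ∑ p ∈ (pr N).filter (fun p => ¬ p ∣ M), lmA M b p / p -
        ∑ p ∈ (pr N).filter (fun p => ¬ p ∣ M), Real.log p / p := by
    rw [← sum_sub_distrib]
    apply sum_congr rfl
    intro p hp
    rw [mem_filter, mem_pr] at hp
    have h6 := lmA_pp M b hp.1.1 one_ne_zero
    rw [pow_one, ww_one hp.2] at h6
    rw [h6]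
    ring
  have h6 := abs_le.1 (h1 N hN)
  have h7 := h2 N
  have h8 := h3 N hN
  rw [e2, abs_le]
  constructor
  · linarith [h4.1, h4.2, h5.1, h5.2, h6.1, h6.2, h8.1, h8.2.1]
  · linarith [h4.1, h4.2, h5.1, h5.2, h6.1, h6.2, h8.1, h8.2.1]

/-- Module T3c-2 from the mean value -/
theorem mertN_of (hRS : StRSR) : StMertN := by
  intro M g b ε h
  have hr := rel_of_NF h
  obtain ⟨V, C, δ, hV, hδ, hB⟩ := hRS M g b h.pos h.s2 h.qe h.one
  have hi := inp_of (bR_nonneg M b) hV hδ hB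
  obtain ⟨C', hC', h1⟩ := mert_primes hr hi
  refine ⟨C' + 1, by linarith, fun x hx => ?_⟩
  have hfl : 1 ≤ ⌊x⌋₊ := by rw [Nat.le_floor_iff (by linarith)]; exact_mod_cast hx
  have h2 := h1 ⌊x⌋₊ hfl
  have e : (Finset.range (⌊x⌋₊ + 1)).filter (fun p => p.Prime ∧ ¬ p ∣ M) =
      (pr ⌊x⌋₊).filter (fun p => ¬ p ∣ M) := by
    ext p
    rw [mem_filter, mem_filter, mem_pr, mem_range]
    constructor
    · rintro ⟨h3, h4, h5⟩; exact ⟨⟨h4, by omega⟩, h5⟩
    · rintro ⟨⟨h3, h4⟩, h5⟩; exact ⟨by omega, h3, h5⟩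
  rw [e]
  linarith

end P004N.H176
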